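import Vale.Agent.P150.Limit
import Vale.Agent.P150.Conc

/-!
# P150: the squared overlap at the critical temperature is at most a power of `1/n`

The second moment below `β = 1` and the variance of the pressure put the free energy close to the
annealed one; convexity carries this to the slope at `β = 1`.
-/

open MeasureTheory ProbabilityTheory Real Finset

namespace Vale.Agent.P150

variable {n : ℕ} {b : ℝ}

theorem card_edge (n : ℕ) : (Fintype.card (Edge n) : ℝ) = n * (n - 1) / 2 := by
  have h := sum_edge (n := n) (fun i j => if i = j then (0 : ℝ) else 1) (fun i j => by simp [eq_comm])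
  simp only [if_true, Finset.sum_const_zero, sub_zero] at h
  have e : ∀ i : Fin n, (∑ j, if i = j then (0 : ℝ) else 1) = n - 1 := fun i => by
    simp [Finset.sum_ite, Finset.filter_ne, Nat.cast_sub (show 1 ≤ n from i.pos)]
  simp only [e, Finset.sum_const, card_univ, Fintype.card_fin, nsmul_eq_mul] at h
  have e1 : ∀ e : Edge n, (if e.1.1 = e.1.2 then (0 : ℝ) else 1) = 1 := fun e => if_neg e.2.ne
  simp only [e1, Finset.sum_const, card_univ, nsmul_eq_mul, mul_one] at h
  linarith

/-- The partition function. -/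
noncomputable def partZ (n : ℕ) (b : ℝ) (g : Edge n → ℝ) : ℝ :=
  ∑ x, exp (expo (pairA n) (fun _ => b / √n) g x)

/-- The annealed partition function. -/
noncomputable def annZ (n : ℕ) (b : ℝ) : ℝ := 2 ^ n * exp (b ^ 2 * ((n : ℝ) - 1) / 4)

theorem annZ_pos (n : ℕ) (b : ℝ) : 0 < annZ n b := by unfold annZ; positivity

theorem expo_eq_dot (x : Fin n → Bool) (g : Edge n → ℝ) :
    expo (pairA n) (fun _ => b / √n) g x = ∑ e, b / √n * pairA n x e * g e :=
  Finset.sum_congr rfl fun e _ => by ring

theorem integral_partZ (hn : 0 < n) : ∫ g, partZ n b g ∂stdPi (Edge n) = annZ n b := by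
  unfold partZ annZ
  simp only [expo_eq_dot]
  rw [integral_finsetSum _ fun x _ => integrable_exp_dot _]
  have hn' : (0 : ℝ) < n := by exact_mod_cast hn
  have e : ∀ x : Fin n → Bool, ∑ e, (b / √n * pairA n x e) ^ 2 = b ^ 2 * ((n : ℝ) - 1) / 2 := fun x => by
    simp only [mul_pow, pairA_sq, mul_one, Finset.sum_const, card_univ, nsmul_eq_mul, card_edge, div_pow,
      sq_sqrt hn'.le]
    field_simp
  simp only [integral_exp_dot, e, Finset.sum_const, card_univ, Fintype.card_fun, Fintype.card_bool,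
    Fintype.card_fin, nsmul_eq_mul]
  push_cast
  ring_nf

theorem sum_pairA_mul (x y : Fin n → Bool) :
    ∑ e : Edge n, pairA n x e * pairA n y e
      = ((∑ i, spin (x i) * spin (y i)) ^ 2 - n) / 2 := by
  have h := sum_edge (n := n)
    (fun i j => spin (x i) * spin (y i) * (spin (x j) * spin (y j))) (fun i j => by ring)
  have e1 : ∑ i : Fin n, ∑ j : Fin n, spin (x i) * spin (y i) * (spin (x j) * spin (y j))
      = (∑ i, spin (x i) * spin (y i)) ^ 2 := by rw [sq, sum_mul_sum]
  have e2 : ∑ i : Fin n, spin (x i) * spin (y i) * (spin (x i) * spin (y i)) = n := by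
    simp [mul_mul_mul_comm, spin_mul_self]
  have e3 : ∑ e : Edge n, pairA n x e * pairA n y e
      = ∑ e : Edge n, spin (x e.1.1) * spin (y e.1.1) * (spin (x e.1.2) * spin (y e.1.2)) :=
    Finset.sum_congr rfl fun e _ => by simp only [pairA]; ring
  rw [e1, e2] at h
  rw [e3]
  linarith

theorem overlap_mgf (hn : 0 < n) (hb0 : 0 ≤ b) (hb : b < 1) :
    ∑ z : Fin n → Bool, exp (b ^ 2 * (∑ i, spin (z i)) ^ 2 / (2 * n)) ≤ 2 ^ n * (√(1 - b ^ 2))⁻¹ := by
  have hn' : (0 : ℝ) < n := by exact_mod_cast hn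
  set c := b / √(n : ℝ) with hc
  have hc2 : c ^ 2 = b ^ 2 / n := by rw [hc, div_pow, sq_sqrt hn'.le]
  have hlin : ∀ z : Fin n → Bool, exp (b ^ 2 * (∑ i, spin (z i)) ^ 2 / (2 * n))
      = ∫ y, exp (c * (∑ i, spin (z i)) * y) ∂std := fun z => by
    rw [integral_exp_std, mul_pow, hc2]; ring_nf
  simp only [hlin]
  simp only [std]
  rw [← integral_finsetSum _ fun z _ => integrable_exp_mul_gaussianReal _]
  have hprod : ∀ y : ℝ, ∑ z : Fin n → Bool, exp (c * (∑ i, spin (z i)) * y) = (2 * cosh (c * y)) ^ n := by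
    intro y
    have e : ∀ z : Fin n → Bool, exp (c * (∑ i, spin (z i)) * y) = ∏ i, exp (c * y * spin (z i)) := fun z => by
      rw [← exp_sum, mul_sum, sum_mul]; congr 1; exact Finset.sum_congr rfl fun i _ => by ring
    simp only [e]
    rw [← Fintype.prod_sum (fun _ : Fin n => fun s : Bool => exp (c * y * spin s))]
    simp [spin, cosh_eq]
    ring
  simp only [hprod]
  have hle : ∀ y : ℝ, (2 * cosh (c * y)) ^ n ≤ 2 ^ n * exp (b ^ 2 * y ^ 2 / 2) := fun y => by
    rw [mul_pow]
    refine mul_le_mul_of_nonneg_left ((pow_le_pow_left₀ (cosh_pos _).le (cosh_le_exp_half_sq _) n).trans_eq ?_)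
      (by positivity)
    rw [← exp_nat_mul, mul_pow, hc2]
    congr 1; field_simp
  have hu : 0 < 1 - b ^ 2 := by nlinarith
  have key : ∀ y : ℝ, gaussianPDFReal 0 1 y • exp (b ^ 2 * y ^ 2 / 2)
      = (√(2 * π))⁻¹ * exp (-((1 - b ^ 2) / 2) * y ^ 2) := fun y => by
    simp only [gaussianPDFReal, NNReal.coe_one, mul_one, sub_zero, smul_eq_mul, mul_assoc, ← exp_add]
    congr 2; ring
  have hi : Integrable (fun y : ℝ => 2 ^ n * exp (b ^ 2 * y ^ 2 / 2)) std := by
    refine Integrable.const_mul ?_ _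
    rw [std, gaussianReal_of_var_ne_zero _ one_ne_zero,
      integrable_withDensity_iff_integrable_smul' (measurable_gaussianPDF 0 1)
        (Filter.Eventually.of_forall fun x => gaussianPDF_lt_top)]
    refine ((integrable_exp_neg_mul_sq (show 0 < (1 - b ^ 2) / 2 by linarith)).const_mul (√(2 * π))⁻¹).congr
      (Filter.Eventually.of_forall fun x => ?_)
    simp only [toReal_gaussianPDF]
    exact (key x).symm
  refine (integral_mono_of_nonneg (Filter.Eventually.of_forall fun y => by positivity) (by simpa only [std] using hi)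
    (Filter.Eventually.of_forall hle)).trans (le_of_eq ?_)
  rw [integral_const_mul, integral_gaussianReal_eq_integral_smul one_ne_zero]
  simp only [key]
  rw [integral_const_mul, integral_gaussian, div_div_eq_mul_div, mul_comm π 2, sqrt_div' _ hu.le]
  have : √(2 * π) ≠ 0 := (sqrt_pos.2 (by positivity)).ne'
  have : √(1 - b ^ 2) ≠ 0 := (sqrt_pos.2 hu).ne'
  field_simp

theorem integral_partZ_sq (hn : 0 < n) (hb0 : 0 ≤ b) (hb : b < 1) :
    Integrable (fun g => partZ n b g ^ 2) (stdPi (Edge n)) ∧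
      ∫ g, partZ n b g ^ 2 ∂stdPi (Edge n) ≤ annZ n b ^ 2 * (√(1 - b ^ 2))⁻¹ := by
  have hn' : (0 : ℝ) < n := by exact_mod_cast hn
  have e : ∀ g, partZ n b g ^ 2 = ∑ x, ∑ y, exp (∑ k, b / √n * (pairA n x k + pairA n y k) * g k) := fun g => by
    simp only [partZ, sq, sum_mul_sum, expo_eq_dot, ← exp_add, ← Finset.sum_add_distrib]
    exact Finset.sum_congr rfl fun x _ => Finset.sum_congr rfl fun y _ => by
      congr 1; exact Finset.sum_congr rfl fun k _ => by ring
  simp only [e]
  refine ⟨integrable_finsetSum _ fun x _ => integrable_finsetSum _ fun y _ => integrable_exp_dot _, ?_⟩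
  rw [integral_finsetSum _ fun x _ => integrable_finsetSum _ fun y _ => integrable_exp_dot _]
  have hterm : ∀ x y : Fin n → Bool, ∫ g, exp (∑ k, b / √n * (pairA n x k + pairA n y k) * g k) ∂stdPi (Edge n)
      ≤ exp (b ^ 2 * ((n : ℝ) - 1) / 2) * exp (b ^ 2 * (∑ i, spin (x i) * spin (y i)) ^ 2 / (2 * n)) := by
    intro x y
    rw [integral_exp_dot, ← exp_add]
    refine exp_le_exp.2 ?_
    have e1 : ∀ k : Edge n, (b / √n * (pairA n x k + pairA n y k)) ^ 2
        = b ^ 2 / n * (2 + 2 * (pairA n x k * pairA n y k)) := fun k => by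
      rw [mul_pow, div_pow, sq_sqrt hn'.le, add_sq, pairA_sq, pairA_sq]; ring
    simp only [e1, ← Finset.mul_sum, Finset.sum_add_distrib, sum_pairA_mul, Finset.sum_const, card_univ,
      nsmul_eq_mul, card_edge]
    have h0 : 0 ≤ b ^ 2 / n * n := by positivity
    field_simp
    nlinarith [sq_nonneg b]
  calc ∑ x : Fin n → Bool, ∫ g, ∑ y, exp (∑ k, b / √n * (pairA n x k + pairA n y k) * g k) ∂stdPi (Edge n)
      ≤ ∑ _x : Fin n → Bool, exp (b ^ 2 * ((n : ℝ) - 1) / 2) * (2 ^ n * (√(1 - b ^ 2))⁻¹) := by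
        refine Finset.sum_le_sum fun x _ => ?_
        rw [integral_finsetSum _ fun y _ => integrable_exp_dot _]
        refine (Finset.sum_le_sum fun y _ => hterm x y).trans ?_
        rw [← Finset.mul_sum]
        refine mul_le_mul_of_nonneg_left (le_of_eq_of_le ?_ (overlap_mgf hn hb0 hb)) (exp_pos _).le
        have hinv : Function.Involutive fun (y : Fin n → Bool) i => x i == y i := fun y => by
          funext i; cases x i <;> simp
        rw [← Equiv.sum_comp hinv.toPerm fun z => exp (b ^ 2 * (∑ i, spin (z i)) ^ 2 / (2 * (n : ℝ)))]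
        refine Finset.sum_congr rfl fun y _ => ?_
        have es : ∀ i, spin (x i == y i) = spin (x i) * spin (y i) := fun i => by
          cases x i <;> cases y i <;> simp [spin]
        simp only [Function.Involutive.coe_toPerm, es]
    _ = _ := by
        simp only [annZ, Finset.sum_const, card_univ, Fintype.card_fun, Fintype.card_bool, Fintype.card_fin,
          nsmul_eq_mul, mul_pow, ← exp_nat_mul]
        push_cast
        ring_nf

theorem free_le_annealed (hn : 0 < n) (b : ℝ) : free n b ≤ n * log 2 + b ^ 2 * n / 4 := by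
  have hM := annZ_pos n b
  have hint : Integrable (fun g => partZ n b g / annZ n b) (stdPi (Edge n)) := by
    refine Integrable.div_const ?_ _
    unfold partZ
    simp only [expo_eq_dot]
    exact integrable_finsetSum _ fun x _ => integrable_exp_dot _
  have h : free n b ≤ ∫ g, log (annZ n b) + (partZ n b g / annZ n b - 1) ∂stdPi (Edge n) := by
    refine integral_mono (integrable_press (pairA_sq n) _) ((integrable_const _).add (hint.sub (integrable_const _)))
      fun g => ?_
    have hZ : 0 < partZ n b g := sum_exp_pos _ _ g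
    have h := log_le_sub_one_of_pos (div_pos hZ hM)
    rw [log_div hZ.ne' hM.ne'] at h
    simp only [press]
    rw [partZ] at h ⊢
    linarith
  rw [integral_add (integrable_const _) (hint.sub' (integrable_const _)),
    integral_sub hint (integrable_const _), integral_div, integral_partZ hn, div_self hM.ne'] at h
  simp only [integral_const, probReal_univ, smul_eq_mul, one_mul, sub_self, add_zero] at h
  rw [annZ, log_mul (by positivity) (exp_pos _).ne', log_pow, log_exp] at h
  nlinarith [sq_nonneg b]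

theorem free_ge_annealed (hn : 0 < n) (hb0 : 0 ≤ b) (hb : b < 1) :
    log (annZ n b / 2) - √(2 * n * (√(1 - b ^ 2))⁻¹) ≤ free n b := by
  set M := annZ n b with hMd
  have hM : 0 < M := annZ_pos n b
  set s := (√(1 - b ^ 2))⁻¹ with hsd
  have hs : 0 < s := inv_pos.2 (sqrt_pos.2 (by nlinarith))
  set m := free n b
  set D := log (M / 2) - m with hD
  suffices hD2 : D ≤ √(2 * n * s) by linarith
  rcases le_or_gt D 0 with h0 | h0
  · exact h0.trans (sqrt_nonneg _)
  refine le_sqrt_of_sq_le ?_
  obtain ⟨hZ2i, hZ2⟩ := integral_partZ_sq (n := n) hn hb0 hb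
  have hL : ∀ g g', |press (pairA n) (fun _ => b / √n) g - press (pairA n) (fun _ => b / √n) g'|
      ≤ |b / √n| * ∑ k, |g k - g' k| := fun g g' => press_le_of_dist (pairA_sq n) _ g g'
  have hvar : ∫ g, (press (pairA n) (fun _ => b / √n) g - m) ^ 2 ∂stdPi (Edge n) ≤ n / 2 := by
    refine (variance_lipschitz_le (measurable_press _ _) hL).trans ?_
    have hn' : (0 : ℝ) < n := by exact_mod_cast hn
    rw [sq_abs, div_pow, sq_sqrt hn'.le, card_edge]
    have hb2 : b ^ 2 ≤ 1 := pow_le_one₀ hb0 hb.le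
    rw [show (n : ℝ) * (n - 1) / 2 * (b ^ 2 / n) = b ^ 2 * (n - 1) / 2 by field_simp]
    nlinarith [sq_nonneg b]
  have hvi : Integrable (fun g => (press (pairA n) (fun _ => b / √n) g - m) ^ 2) (stdPi (Edge n)) :=
    ((memLp_lipschitz (measurable_press _ _) hL).sub (memLp_const _)).integrable_sq
  set lam := 1 / (2 * M * s) with hlam
  have hl : 0 < lam := by rw [hlam]; positivity
  have hZi : Integrable (partZ n b) (stdPi (Edge n)) := by
    unfold partZ
    simp only [expo_eq_dot]
    exact integrable_finsetSum _ fun x _ => integrable_exp_dot _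
  have hpt : ∀ g, partZ n b g ≤ M / 2 + (lam / 2 * partZ n b g ^ 2
      + 1 / (2 * lam * D ^ 2) * (press (pairA n) (fun _ => b / √n) g - m) ^ 2) := by
    intro g
    have hZ : 0 < partZ n b g := sum_exp_pos _ _ g
    rcases le_or_gt (partZ n b g) (M / 2) with h | h
    · exact h.trans (le_add_of_nonneg_right (by positivity))
    · set X := press (pairA n) (fun _ => b / √n) g
      have hX : D ≤ X - m := by
        have h' : log (M / 2) ≤ X := Real.log_le_log (by positivity) h.le
        linarith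
      have h1 : 1 / (2 * lam) ≤ 1 / (2 * lam * D ^ 2) * (X - m) ^ 2 := by
        calc 1 / (2 * lam) = 1 / (2 * lam * D ^ 2) * D ^ 2 := by field_simp
          _ ≤ _ := mul_le_mul_of_nonneg_left (pow_le_pow_left₀ h0.le hX 2) (by positivity)
      have h2 : partZ n b g ≤ lam / 2 * partZ n b g ^ 2 + 1 / (2 * lam) := by
        have e : lam / 2 * partZ n b g ^ 2 + 1 / (2 * lam) - partZ n b g
            = (lam * partZ n b g - 1) ^ 2 / (2 * lam) := by field_simp; ring
        linarith [show 0 ≤ (lam * partZ n b g - 1) ^ 2 / (2 * lam) by positivity]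
      linarith
  have i2 : Integrable (fun g => lam / 2 * partZ n b g ^ 2
      + 1 / (2 * lam * D ^ 2) * (press (pairA n) (fun _ => b / √n) g - m) ^ 2) (stdPi (Edge n)) :=
    (hZ2i.const_mul _).add (hvi.const_mul _)
  have h := integral_mono hZi ((integrable_const _).add i2) hpt
  simp only [Pi.add_apply] at h
  rw [integral_partZ hn, integral_add (integrable_const _) i2,
    integral_add (hZ2i.const_mul _) (hvi.const_mul _), integral_const_mul, integral_const_mul] at h
  simp only [integral_const, probReal_univ, smul_eq_mul, one_mul] at h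
  rw [← hMd] at h
  have a1 := mul_le_mul_of_nonneg_left hZ2 (show 0 ≤ lam / 2 by positivity)
  have a2 := mul_le_mul_of_nonneg_left hvar (show 0 ≤ 1 / (2 * lam * D ^ 2) by positivity)
  rw [← hMd, ← hsd] at a1
  have e1 : lam / 2 * (M ^ 2 * s) = M / 4 := by rw [hlam]; field_simp; ring
  have e2 : 1 / (2 * lam * D ^ 2) * ((n : ℝ) / 2) = M * (n * s) / (2 * D ^ 2) := by rw [hlam]; field_simp
  rw [e1] at a1
  rw [e2] at a2
  have h3 : M / 4 ≤ M * (n * s) / (2 * D ^ 2) := by linarith
  rw [le_div_iff₀ (by positivity)] at h3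
  nlinarith

/-- At `β = 1` the mean squared overlap is at most a power of `1/n`. -/
theorem meanOverlap_one_le :
    ∃ C : ℝ, 0 < C ∧ ∀ n : ℕ, 0 < n → meanOverlap n 1 ≤ C * (n : ℝ) ^ (-(1 / 5 : ℝ)) := by
  refine ⟨12, by norm_num, fun n hn => ?_⟩
  have hn' : (0 : ℝ) < n := by exact_mod_cast hn
  set h := (n : ℝ) ^ (-(1 / 5 : ℝ)) with hh
  have hh0 : 0 < h := rpow_pos_of_pos hn' _
  rcases eq_or_lt_of_le (Nat.one_le_iff_ne_zero.2 hn.ne') with h1 | h1
  · subst h1
    rw [hh, Nat.cast_one, one_rpow]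
    linarith [(meanOverlap_mem 1 1).2]
  have hn1 : (1 : ℝ) < n := by exact_mod_cast h1
  have hh1 : h < 1 := rpow_lt_one_of_one_lt_of_neg hn1 (by norm_num)
  have hsq : 0 < h ^ 2 ∧ h ^ 2 < 1 := ⟨pow_pos hh0 2, pow_lt_one₀ hh0.le hh1 two_ne_zero⟩
  have hn5 : (n : ℝ) * h ^ 5 = 1 := by
    rw [hh, ← rpow_natCast _ 5, ← rpow_mul hn'.le,
      show (-(1 / 5) : ℝ) * ((5 : ℕ) : ℝ) = -1 by norm_num, rpow_neg_one, mul_inv_cancel₀ hn'.ne']
  set c := 1 - h ^ 2 with hc
  have hlow := free_ge_annealed (n := n) (b := c) hn (by linarith [hsq.2]) (by linarith [hsq.1])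
  have hup := free_le_annealed (n := n) hn (1 - h)
  have ht := free_tangent n 1 (1 - h)
  have hmono : free n c ≤ free n 1 := by
    have := free_tangent n c 1
    have h0 : 0 ≤ (1 - c) * (↑n * (c / 2 * (1 - meanOverlap n c))) := by
      refine mul_nonneg (by linarith [hsq.1]) (mul_nonneg hn'.le (mul_nonneg (by linarith [hsq.2]) ?_))
      linarith [(meanOverlap_mem n c).2]
    linarith
  rw [annZ, log_div (by positivity) two_ne_zero, log_mul (by positivity) (exp_pos _).ne', log_pow, log_exp]
    at hlow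
  have hroot : √(2 * (n : ℝ) * (√(1 - c ^ 2))⁻¹) ≤ 2 * n * h ^ 2 := by
    rw [sqrt_le_left (by positivity)]
    have h1 : h ≤ √(1 - c ^ 2) := le_sqrt_of_sq_le (by nlinarith [hsq.1, hsq.2, hc])
    calc 2 * (n : ℝ) * (√(1 - c ^ 2))⁻¹ ≤ 2 * n * h⁻¹ :=
          mul_le_mul_of_nonneg_left (inv_anti₀ hh0 h1) (by positivity)
      _ = 2 * n * (n * h ^ 5) * h⁻¹ := by rw [hn5, mul_one]
      _ = 2 * (n : ℝ) ^ 2 * h ^ 4 := by field_simp
      _ ≤ (2 * n * h ^ 2) ^ 2 := by nlinarith [pow_pos hh0 4]
  have hone : (1 : ℝ) ≤ n * h ^ 2 := by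
    rw [← hn5]; exact mul_le_mul_of_nonneg_left (pow_le_pow_of_le_one hh0.le hh1.le (by norm_num)) hn'.le
  have hlog : log (2 : ℝ) ≤ 1 := by linarith [Real.log_two_lt_d9]
  by_contra hr
  push Not at hr
  nlinarith [mul_lt_mul_of_pos_left hr (mul_pos hn' hh0), mul_le_mul_of_nonneg_left hh1.le hn'.le]

end Vale.Agent.P150
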