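import Vale.Agent.P150.Rate.Resolvent

/-!
# P150 rate: second moments of the resolvent equations at the critical temperature

Integration by parts against the conjugate of the equation itself bounds its second moment by
`1 / n` for the normalised trace and by the mean absolute overlap for the Gibbs mean of the quadratic
form of the resolvent.
-/

open MeasureTheory Matrix Finset Filter Topology
open Vale.Agent.P146 (goe quad)

namespace Vale.Agent.P150.Rate

variable {n : ℕ} {z : ℂ}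

/-- The law of the array. -/
noncomputable abbrev law (n : ℕ) : Measure (Fin n × Fin n → ℝ) := stdPi (Fin n × Fin n)

/-- The spins as a complex vector. -/
noncomputable def sv (x : Fin n → Bool) : Fin n → ℂ := fun i => ((P166.spin (x i) : ℝ) : ℂ)

/-- The Gibbs weight at inverse temperature one. -/
noncomputable def wt1 (x : Fin n → Bool) (A : Fin n × Fin n → ℝ) : ℝ :=
  Real.exp (1 / 2 * quad (goe n A) x) / ∑ y, Real.exp (1 / 2 * quad (goe n A) y)

/-- The form of the resolvent at two configurations, per spin. -/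
noncomputable def qf (z : ℂ) (x y : Fin n → Bool) (A : Fin n × Fin n → ℝ) : ℂ :=
  (sv x ⬝ᵥ (res n z A *ᵥ sv y)) / n

/-- The normalised trace. -/
noncomputable def trS (z : ℂ) (A : Fin n × Fin n → ℝ) : ℂ := (res n z A).trace / n

/-- The Gibbs mean of the form of the resolvent. -/
noncomputable def gibR (z : ℂ) (A : Fin n × Fin n → ℝ) : ℂ := ∑ x, (wt1 x A : ℂ) * qf z x x A

/-- The overlap of two configurations. -/
noncomputable def ov (x y : Fin n → Bool) : ℝ := (∑ i, P166.spin (x i) * P166.spin (y i)) / n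

/-- The mean absolute overlap. -/
noncomputable def absOv (A : Fin n × Fin n → ℝ) : ℝ := ∑ x, ∑ y, wt1 x A * wt1 y A * |ov x y|

theorem dot_sv (x y : Fin n → Bool) : sv x ⬝ᵥ sv y = (n : ℂ) * (ov x y : ℂ) := by
  rcases Nat.eq_zero_or_pos n with rfl | hn
  · simp [dotProduct]
  have hn' : (n : ℂ) ≠ 0 := Nat.cast_ne_zero.2 hn.ne'
  simp only [dotProduct, sv, ov]
  push_cast
  field_simp

theorem nrm_sv (x : Fin n → Bool) : nrm (sv x) = n := by
  have h : ∀ b, P166.spin b ^ 2 = 1 := fun b => by cases b <;> simp [P166.spin]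
  simp [nrm_eq, sv, sq_abs, h]

theorem sum_wt1 (A : Fin n × Fin n → ℝ) : ∑ x, wt1 x A = 1 := by
  simp only [wt1, ← sum_div]
  exact div_self (sum_pos (fun x _ => Real.exp_pos _) univ_nonempty).ne'

theorem wt1_nonneg (x : Fin n → Bool) (A : Fin n × Fin n → ℝ) : 0 ≤ wt1 x A :=
  div_nonneg (Real.exp_pos _).le (sum_nonneg fun y _ => (Real.exp_pos _).le)

theorem wt1_le_one (x : Fin n → Bool) (A : Fin n × Fin n → ℝ) : wt1 x A ≤ 1 :=
  (single_le_sum (fun y _ => wt1_nonneg y A) (mem_univ x)).trans_eq (sum_wt1 A)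

theorem norm_avg_le {A : Fin n × Fin n → ℝ} {φ : (Fin n → Bool) → ℂ} {C : ℝ} (h : ∀ x, ‖φ x‖ ≤ C) :
    ‖∑ x, (wt1 x A : ℂ) * φ x‖ ≤ C := by
  refine (norm_sum_le _ _).trans ?_
  calc ∑ x, ‖(wt1 x A : ℂ) * φ x‖ ≤ ∑ x, wt1 x A * C := sum_le_sum fun x _ => by
        rw [norm_mul, Complex.norm_of_nonneg (wt1_nonneg x A)]
        exact mul_le_mul_of_nonneg_left (h x) (wt1_nonneg x A)
    _ = C := by rw [← sum_mul, sum_wt1, one_mul]

theorem bd_wt1 (x : Fin n → Bool) : Bd fun A => (wt1 x A : ℂ) := by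
  refine ⟨?_, 1, fun A => ?_⟩
  · have h : ∀ y, Continuous fun A => quad (goe n A) y := fun y => by unfold quad goe; fun_prop
    refine Complex.continuous_ofReal.comp ?_
    exact ((continuous_const.mul (h x)).rexp).div
      (continuous_finsetSum _ fun y _ => (continuous_const.mul (h y)).rexp)
      fun A => (sum_pos (fun y _ => Real.exp_pos _) univ_nonempty).ne'
  · rw [Complex.norm_of_nonneg (wt1_nonneg x A)]
    exact wt1_le_one x A

theorem bd_qf (hz : 0 < z.im) (x y : Fin n → Bool) : Bd (qf z x y) :=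
  (bd_dot_res hz _ _).div_const _

theorem bd_gibR (hz : 0 < z.im) : Bd (gibR (n := n) z) :=
  bd_sum _ fun x _ => (bd_wt1 x).mul (bd_qf hz x x)

theorem bd_trS (hz : 0 < z.im) : Bd (trS (n := n) z) :=
  (bd_sum _ fun i _ => bd_res hz i i).div_const _

theorem bd_absOv : Bd fun A : Fin n × Fin n → ℝ => (absOv A : ℂ) := by
  simp only [absOv, Complex.ofReal_sum, Complex.ofReal_mul]
  exact bd_sum _ fun x _ => bd_sum _ fun y _ => ((bd_wt1 x).mul (bd_wt1 y)).mul (bd_const _)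

theorem Bd.integrable {f : (Fin n × Fin n → ℝ) → ℂ} (hf : Bd f) : Integrable f (law n) := by
  obtain ⟨hc, C, hC⟩ := hf
  exact Integrable.of_bound hc.aestronglyMeasurable C (ae_of_all _ hC)

/-- Integration by parts for complex observables. -/
theorem ibp (p : Fin n × Fin n) {f f' : (Fin n × Fin n → ℝ) → ℂ} (hf : Bd f) (hf' : Bd f')
    (hd : ∀ A x, HasDerivAt (fun y => f (Function.update A p y)) (f' (Function.update A p x)) x) :
    ∫ A, (A p : ℂ) * f A ∂law n = ∫ A, f' A ∂law n := by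
  have hint : Integrable (fun A => (A p : ℂ) * f A) (law n) := by
    obtain ⟨hc, C, hC⟩ := hf
    exact ((integrable_coord p).ofReal).mul_bdd hc.aestronglyMeasurable (ae_of_all _ hC)
  have grow : ∀ {φ : (Fin n × Fin n → ℝ) → ℂ} (L : ℂ →L[ℝ] ℝ), Bd φ →
      P146.Goe.Grow fun A => L (φ A) := fun {φ} L hφ => by
    obtain ⟨hc, C, hC⟩ := hφ
    refine ⟨(L.continuous.comp hc).measurable, ‖L‖ * max C 0, 0, by positivity, fun A => ?_⟩
    rw [pow_zero, mul_one, ← Real.norm_eq_abs]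
    exact (L.le_opNorm _).trans (mul_le_mul_of_nonneg_left ((hC A).trans (le_max_left _ _)) (norm_nonneg _))
  have key : ∀ L : ℂ →L[ℝ] ℝ, (∀ (r : ℝ) (c : ℂ), L (r * c) = r * L c) →
      L (∫ A, (A p : ℂ) * f A ∂law n) = L (∫ A, f' A ∂law n) := fun L hL => by
    rw [← L.integral_comp_comm hint, ← L.integral_comp_comm hf'.integrable]
    simp only [hL]
    exact P146.Goe.gauss_ibp p (grow L hf) (grow L hf') fun A x =>
      L.hasFDerivAt.comp_hasDerivAt x (hd A x)
  exact Complex.ext (by simpa using key Complex.reCLM fun r c => by simp)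
    (by simpa using key Complex.imCLM fun r c => by simp)

theorem ibp_sum {f f' : Fin n × Fin n → (Fin n × Fin n → ℝ) → ℂ} (hf : ∀ p, Bd (f p))
    (hf' : ∀ p, Bd (f' p))
    (hd : ∀ p A x, HasDerivAt (fun y => f p (Function.update A p y)) (f' p (Function.update A p x)) x) :
    ∫ A, ∑ p, (A p : ℂ) * f p A ∂law n = ∫ A, ∑ p, f' p A ∂law n := by
  rw [integral_finsetSum, integral_finsetSum]
  · exact sum_congr rfl fun p _ => ibp p (hf p) (hf' p) (hd p)
  · exact fun p _ => (hf' p).integrable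
  · intro p _
    obtain ⟨hc, C, hC⟩ := hf p
    exact ((integrable_coord p).ofReal).mul_bdd hc.aestronglyMeasurable (ae_of_all _ hC)

/-! ### Derivatives -/

theorem hasDerivAt_quad (A : Fin n × Fin n → ℝ) (p : Fin n × Fin n) (x : Fin n → Bool) (t : ℝ) :
    ∃ e : ℝ, (e : ℂ) = eb p (sv x) (sv x) ∧
      HasDerivAt (fun y => quad (goe n (Function.update A p y)) x) e t := by
  refine ⟨2 * P166.spin (x p.1) * P166.spin (x p.2) / √(2 * n), ?_, ?_⟩
  · simp only [eb, sv]; push_cast; ring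
  · have hq : ∀ B : Fin n × Fin n → ℝ, ((quad (goe n B) x : ℝ) : ℂ) = sv x ⬝ᵥ (gm n B *ᵥ sv x) := fun B => by
      simp only [quad, dotProduct, mulVec, gm, Matrix.of_apply, sv, mul_sum]
      push_cast
      exact sum_congr rfl fun i _ => sum_congr rfl fun j _ => by ring
    have e : ∀ y, quad (goe n (Function.update A p y)) x
        = (2 * P166.spin (x p.1) * P166.spin (x p.2) / √(2 * n)) * (y - t)
          + quad (goe n (Function.update A p t)) x := fun y => by
      apply Complex.ofReal_injective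
      push_cast
      rw [hq, hq]
      have := dot_gm_update A p t y (sv x) (sv x)
      simp only [eb, sv] at this ⊢
      push_cast at this
      linear_combination this
    exact ((((hasDerivAt_id t).sub_const t).const_mul _ |>.add_const _).congr_deriv (mul_one _)).congr_of_eventuallyEq
      (Eventually.of_forall fun y => e y)

/-- The derivative of a Gibbs weight along a coordinate. -/
noncomputable def dwt (p : Fin n × Fin n) (x : Fin n → Bool) (A : Fin n × Fin n → ℝ) : ℂ :=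
  (wt1 x A : ℂ) / 2 * (eb p (sv x) (sv x) - ∑ y, (wt1 y A : ℂ) * eb p (sv y) (sv y))

theorem hasDerivAt_wt1 (A : Fin n × Fin n → ℝ) (p : Fin n × Fin n) (x : Fin n → Bool) (t : ℝ) :
    HasDerivAt (fun y => (wt1 x (Function.update A p y) : ℂ)) (dwt p x (Function.update A p t)) t := by
  choose e he hd using fun y => hasDerivAt_quad A p y t
  have hnum : ∀ y, HasDerivAt (fun s => Real.exp (1 / 2 * quad (goe n (Function.update A p s)) y))
      (Real.exp (1 / 2 * quad (goe n (Function.update A p t)) y) * (1 / 2 * e y)) t := fun y =>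
    ((hd y).const_mul (1 / 2)).exp
  have hpos : 0 < ∑ y, Real.exp (1 / 2 * quad (goe n (Function.update A p t)) y) :=
    sum_pos (fun y _ => Real.exp_pos _) univ_nonempty
  have h := ((hnum x).fun_div (HasDerivAt.fun_sum fun y (_ : y ∈ univ) => hnum y) hpos.ne').ofReal_comp
  refine h.congr_deriv ?_
  have hZ : ((∑ y, Real.exp (1 / 2 * quad (goe n (Function.update A p t)) y) : ℝ) : ℂ) ≠ 0 :=
    Complex.ofReal_ne_zero.2 hpos.ne'
  simp only [dwt, wt1, ← he]
  push_cast at hZ ⊢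
  set S : ℂ := ∑ y, Complex.exp (1 / 2 * (quad (goe n (Function.update A p t)) y : ℂ))
  have e1 : ∀ w : (Fin n → Bool) → ℂ, ∑ y, w y * (1 / 2 * (e y : ℂ)) = (∑ y, w y * (e y : ℂ)) / 2 := fun w => by
    rw [sum_div]; exact sum_congr rfl fun y _ => by ring
  have e2 : ∀ w : (Fin n → Bool) → ℂ, ∑ y, w y / S * (e y : ℂ) = (∑ y, w y * (e y : ℂ)) / S := fun w => by
    rw [sum_div]; exact sum_congr rfl fun y _ => by ring
  rw [e1, e2]
  field_simp

theorem hasDerivAt_qf (hz : 0 < z.im) (A : Fin n × Fin n → ℝ) (p : Fin n × Fin n) (x y : Fin n → Bool)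
    (t : ℝ) : HasDerivAt (fun s => qf z x y (Function.update A p s))
      (eb p (res n z (Function.update A p t) *ᵥ sv x) (res n z (Function.update A p t) *ᵥ sv y) / n) t :=
  (hasDerivAt_dot_res hz A p t _ _).div_const _

theorem hasDerivAt_mulVec (hz : 0 < z.im) (A : Fin n × Fin n → ℝ) (p : Fin n × Fin n) (u : Fin n → ℂ)
    (b : Fin n) (t : ℝ) : HasDerivAt (fun s => (res n z (Function.update A p s) *ᵥ u) b)
      (eb p (res n z (Function.update A p t) *ᵥ ev b) (res n z (Function.update A p t) *ᵥ u)) t := by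
  refine (hasDerivAt_dot_res hz A p t (ev b) u).congr_of_eventuallyEq (Eventually.of_forall fun s => ?_)
  simp [ev, dotProduct, Pi.single_apply]

theorem hasDerivAt_eb_right (hz : 0 < z.im) (A : Fin n × Fin n → ℝ) (p : Fin n × Fin n)
    (c u : Fin n → ℂ) (t : ℝ) : HasDerivAt (fun s => eb p c (res n z (Function.update A p s) *ᵥ u))
      (eb p c fun b => eb p (res n z (Function.update A p t) *ᵥ ev b)
        (res n z (Function.update A p t) *ᵥ u)) t := by
  unfold eb
  exact ((((hasDerivAt_mulVec hz A p u p.2 t).const_mul _).add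
    ((hasDerivAt_mulVec hz A p u p.1 t).const_mul _)).div_const _)

/-! ### Bounds -/

theorem nrm_res_sv (hz : 0 < z.im) (A : Fin n × Fin n → ℝ) (x : Fin n → Bool) :
    nrm (res n z A *ᵥ sv x) ≤ (√n / z.im) ^ 2 := by
  refine (nrm_res_le hz A _).trans_eq ?_
  rw [nrm_sv, div_pow, Real.sq_sqrt n.cast_nonneg]

theorem norm_qf_le (hz : 0 < z.im) (x y : Fin n → Bool) (A : Fin n × Fin n → ℝ) :
    ‖qf z x y A‖ ≤ 1 / z.im := by
  rcases Nat.eq_zero_or_pos n with rfl | hn
  · simp [qf, dotProduct, hz.le]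
  have hn' : (0 : ℝ) < n := Nat.cast_pos.2 hn
  rw [qf, norm_div, Complex.norm_natCast, div_le_iff₀ hn']
  refine (norm_dot_le (Real.sqrt_nonneg n) (by positivity) ?_ (nrm_res_sv hz A y)).trans_eq ?_
  · rw [nrm_sv, Real.sq_sqrt n.cast_nonneg]
  · rw [mul_div_assoc', Real.mul_self_sqrt n.cast_nonneg]; ring

theorem norm_gibR_le (hz : 0 < z.im) (A : Fin n × Fin n → ℝ) : ‖gibR z A‖ ≤ 1 / z.im :=
  norm_avg_le fun x => norm_qf_le hz x x A

theorem norm_trS_le (hz : 0 < z.im) (A : Fin n × Fin n → ℝ) : ‖trS z A‖ ≤ 1 / z.im := by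
  rcases Nat.eq_zero_or_pos n with rfl | hn
  · simp [trS, hz.le]
  rw [trS, norm_div, Complex.norm_natCast, div_le_iff₀ (Nat.cast_pos.2 hn)]
  refine (norm_sum_le _ _).trans ((sum_le_sum fun i _ => norm_res_le hz A i i).trans_eq ?_)
  simp [mul_comm]

/-! ### The second moments -/

/-- The equation of the trace. -/
noncomputable def eqS (z : ℂ) (A : Fin n × Fin n → ℝ) : ℂ := z * trS z A - 1 - trS z A ^ 2

theorem bd_eqS (hz : 0 < z.im) : Bd (eqS (n := n) z) := by
  have h := (((bd_const z).mul (bd_trS (n := n) hz)).sub (bd_const 1)).sub ((bd_trS hz).mul (bd_trS hz))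
  simp only [← pow_two] at h
  exact h

theorem norm_sq_eq_re (c : ℂ) : ‖c‖ ^ 2 = (c * starRingEnd ℂ c).re := by
  rw [Complex.mul_conj, Complex.ofReal_re, Complex.sq_norm]

theorem one_eq (hz : 0 < z.im) (A : Fin n × Fin n → ℝ) (u : Fin n → ℂ) :
    z * (u ⬝ᵥ (res n z A *ᵥ u)) - ∑ p, (A p : ℂ) * eb p u (res n z A *ᵥ u) = u ⬝ᵥ u := by
  rw [← dot_gm, ← smul_eq_mul, ← dotProduct_smul, ← dotProduct_sub]
  have h : z • res n z A *ᵥ u - gm n A *ᵥ (res n z A *ᵥ u)
      = ((z • (1 : Matrix (Fin n) (Fin n) ℂ) - gm n A) * res n z A) *ᵥ u := by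
    rw [Matrix.sub_mul, Matrix.smul_mul, Matrix.one_mul, Matrix.sub_mulVec, Matrix.mulVec_mulVec,
      Matrix.smul_mulVec]
  rw [h, mul_res hz, one_mulVec]

/-! #### The trace -/

/-- The test field of the trace. -/
noncomputable def psi (z : ℂ) (p : Fin n × Fin n) (A : Fin n × Fin n → ℝ) : ℂ :=
  (∑ i, eb p (ev i) (res n z A *ᵥ ev i)) / n

/-- Its derivative along the coordinate. -/
noncomputable def psi' (z : ℂ) (p : Fin n × Fin n) (A : Fin n × Fin n → ℝ) : ℂ :=
  (∑ i, eb p (ev i) fun b => eb p (res n z A *ᵥ ev b) (res n z A *ᵥ ev i)) / n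

/-- The derivative of the trace along a coordinate. -/
noncomputable def dtr (z : ℂ) (p : Fin n × Fin n) (A : Fin n × Fin n → ℝ) : ℂ :=
  (∑ i, eb p (res n z A *ᵥ ev i) (res n z A *ᵥ ev i)) / n

theorem bd_eb_const (c : Fin n → ℂ) {v : (Fin n × Fin n → ℝ) → Fin n → ℂ}
    (hv : ∀ i, Bd fun A => v A i) (p : Fin n × Fin n) : Bd fun A => eb p c (v A) :=
  bd_eb (u := fun _ => c) (fun i => bd_const (c i)) hv p

theorem bd_eb_res (hz : 0 < z.im) (c u : Fin n → ℂ) (p : Fin n × Fin n) :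
    Bd fun A => eb p c (res n z A *ᵥ u) :=
  bd_eb_const c (bd_mulVec hz u) p

theorem bd_eb_res' (hz : 0 < z.im) (c u : Fin n → ℂ) (p : Fin n × Fin n) :
    Bd fun A => eb p c fun b => eb p (res n z A *ᵥ ev b) (res n z A *ᵥ u) :=
  bd_eb_const c (v := fun A b => eb p (res n z A *ᵥ ev b) (res n z A *ᵥ u))
    (fun b => bd_eb (bd_mulVec hz (ev b)) (bd_mulVec hz u) p) p

theorem bd_psi (hz : 0 < z.im) (p : Fin n × Fin n) : Bd (psi z p) :=
  (bd_sum _ fun i _ => bd_eb_res hz (ev i) (ev i) p).div_const _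

theorem bd_psi' (hz : 0 < z.im) (p : Fin n × Fin n) : Bd (psi' z p) :=
  (bd_sum _ fun i _ => bd_eb_res' hz (ev i) (ev i) p).div_const _

theorem bd_dtr (hz : 0 < z.im) (p : Fin n × Fin n) : Bd (dtr z p) :=
  (bd_sum _ fun i _ => bd_eb (bd_mulVec hz (ev i)) (bd_mulVec hz (ev i)) p).div_const _

theorem dot_ev (i : Fin n) (v : Fin n → ℂ) : ev i ⬝ᵥ v = v i := by
  simp [ev, dotProduct, Pi.single_apply]

theorem trS_eq (B : Fin n × Fin n → ℝ) : trS z B = (∑ i, ev i ⬝ᵥ (res n z B *ᵥ ev i)) / n := by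
  simp [trS, Matrix.trace, dot_ev, ← res_apply]

theorem hasDerivAt_trS (hz : 0 < z.im) (A : Fin n × Fin n → ℝ) (p : Fin n × Fin n) (x : ℝ) :
    HasDerivAt (fun y => trS z (Function.update A p y)) (dtr z p (Function.update A p x)) x := by
  simp only [trS_eq]
  exact (HasDerivAt.fun_sum fun i _ => hasDerivAt_dot_res hz A p x (ev i) (ev i)).div_const _

theorem hasDerivAt_psi (hz : 0 < z.im) (A : Fin n × Fin n → ℝ) (p : Fin n × Fin n) (x : ℝ) :
    HasDerivAt (fun y => psi z p (Function.update A p y)) (psi' z p (Function.update A p x)) x :=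
  (HasDerivAt.fun_sum fun i _ => hasDerivAt_eb_right hz A p (ev i) (ev i) x).div_const _

theorem hasDerivAt_conj_eqS (hz : 0 < z.im) (A : Fin n × Fin n → ℝ) (p : Fin n × Fin n) (x : ℝ) :
    HasDerivAt (fun y => starRingEnd ℂ (eqS z (Function.update A p y)))
      (starRingEnd ℂ ((z - 2 * trS z (Function.update A p x)) * dtr z p (Function.update A p x))) x := by
  have h := (((hasDerivAt_trS hz A p x).const_mul z).sub_const 1).sub ((hasDerivAt_trS hz A p x).fun_pow 2)
  exact Complex.conjCLE.toContinuousLinearMap.hasFDerivAt.comp_hasDerivAt x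
    (h.congr_deriv (by push_cast; ring))

theorem sum_psi (hn : 0 < n) (hz : 0 < z.im) (A : Fin n × Fin n → ℝ) :
    ∑ p, (A p : ℂ) * psi z p A = z * trS z A - 1 := by
  have hn' : (n : ℂ) ≠ 0 := Nat.cast_ne_zero.2 hn.ne'
  have h : ∀ i : Fin n, ∑ p, (A p : ℂ) * eb p (ev i) (res n z A *ᵥ ev i)
      = z * res n z A i i - 1 := fun i => by
    have := one_eq hz A (ev i)
    rw [dot_ev, dot_ev, ← res_apply, show ev i i = 1 by simp [ev]] at this
    linear_combination -this
  simp only [psi, mul_div_assoc', ← sum_div, mul_sum]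
  rw [sum_comm]
  simp only [h, sum_sub_distrib, ← mul_sum, sum_const, card_univ, Fintype.card_fin, nsmul_eq_mul, mul_one,
    trS, Matrix.trace, Matrix.diag]
  field_simp

/-- The normalised trace of the squared resolvent. -/
noncomputable def trS2 (z : ℂ) (A : Fin n × Fin n → ℝ) : ℂ :=
  (∑ i, (res n z A *ᵥ ev i) ⬝ᵥ (res n z A *ᵥ ev i)) / n

theorem bd_trS2 (hz : 0 < z.im) : Bd (trS2 (n := n) z) :=
  (bd_sum _ fun i _ => bd_sum _ fun b _ => (bd_mulVec hz (ev i) b).mul (bd_mulVec hz (ev i) b)).div_const _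

theorem sum_psi' (hz : 0 < z.im) (A : Fin n × Fin n → ℝ) :
    ∑ p, psi' z p A = trS2 z A / n + trS z A ^ 2 := by
  simp only [psi', ← sum_div]
  rw [sum_comm]
  simp only [contr_res A hz, dot_ev, ← res_apply, ← sum_div, sum_add_distrib, ← sum_mul, trS2, trS,
    show ∑ i, res n z A i i = (res n z A).trace from rfl]
  ring

theorem norm_trS2_le (hn : 0 < n) (hz : 0 < z.im) (A : Fin n × Fin n → ℝ) :
    ‖trS2 z A‖ ≤ 1 / z.im ^ 2 := by
  have hr : ∀ i, nrm (res n z A *ᵥ ev i) ≤ (1 / z.im) ^ 2 := fun i =>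
    (nrm_res_le hz A _).trans_eq (by rw [nrm_ev, div_pow, one_pow])
  rw [trS2, norm_div, Complex.norm_natCast, div_le_iff₀ (Nat.cast_pos.2 hn)]
  refine (norm_sum_le _ _).trans ((sum_le_sum fun i _ => norm_dot_le (by positivity) (by positivity)
    (hr i) (hr i)).trans_eq ?_)
  simp; field_simp

theorem norm_eqS_le (hz : 0 < z.im) (hz1 : z.im ≤ 1) (hz3 : ‖z‖ ≤ 3) (A : Fin n × Fin n → ℝ) :
    ‖eqS z A‖ ≤ 5 / z.im ^ 2 := by
  have hs := norm_trS_le (n := n) hz A
  refine (norm_sub_le _ _).trans ((add_le_add (norm_sub_le _ _) le_rfl).trans ?_)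
  rw [norm_mul, norm_one, norm_pow]
  have h1 : 1 / z.im ≤ 1 / z.im ^ 2 := by
    apply one_div_le_one_div_of_le (by positivity)
    nlinarith
  have h2 : (1 : ℝ) ≤ 1 / z.im ^ 2 := by
    rw [le_div_iff₀ (by positivity)]
    nlinarith
  have h3 : ‖trS z A‖ ^ 2 ≤ 1 / z.im ^ 2 := by
    simpa [div_pow] using pow_le_pow_left₀ (norm_nonneg _) hs 2
  have h4 : ‖z‖ * ‖trS z A‖ ≤ 3 * (1 / z.im) := mul_le_mul hz3 hs (norm_nonneg _) (by norm_num)
  have h5 : (5 : ℝ) / z.im ^ 2 = 5 * (1 / z.im ^ 2) := by ring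
  linarith

theorem conj_eb (p : Fin n × Fin n) (a b : Fin n → ℂ) : starRingEnd ℂ (eb p a b)
    = eb p (fun c => starRingEnd ℂ (a c)) fun c => starRingEnd ℂ (b c) := by
  simp [eb]

theorem sum_psi_dtr (A : Fin n × Fin n → ℝ) :
    ∑ p, psi z p A * starRingEnd ℂ (dtr z p A) = (∑ i, ∑ j, 2 *
      ((ev i ⬝ᵥ fun c => starRingEnd ℂ ((res n z A *ᵥ ev j) c)) *
        ((res n z A *ᵥ ev i) ⬝ᵥ fun c => starRingEnd ℂ ((res n z A *ᵥ ev j) c))) / n) / (n * n) := by
  simp only [psi, dtr, map_div₀, map_sum, map_natCast, conj_eb, div_mul_div_comm, ← sum_div, sum_mul_sum]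
  congr 1
  rw [sum_comm, sum_div]
  refine sum_congr rfl fun i _ => ?_
  rw [sum_div]
  rw [sum_comm]
  refine sum_congr rfl fun j _ => ?_
  rw [contr]
  ring

theorem norm_cross_trS (hn : 0 < n) (hz : 0 < z.im) (hz1 : z.im ≤ 1) (hz3 : ‖z‖ ≤ 3)
    (A : Fin n × Fin n → ℝ) :
    ‖∑ p, psi z p A * starRingEnd ℂ ((z - 2 * trS z A) * dtr z p A)‖ ≤ 10 / (n * z.im ^ 4) := by
  set η := z.im
  have hη : 0 < η := hz
  have hnr : (0 : ℝ) < n := Nat.cast_pos.2 hn
  simp only [map_mul, mul_left_comm _ (starRingEnd ℂ (z - 2 * trS z A)), ← mul_sum, sum_psi_dtr]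
  rw [norm_mul, RCLike.norm_conj]
  refine (mul_le_mul (b := 5 / η) (d := 2 / (n * η ^ 3)) ?_ ?_ (norm_nonneg _) (by positivity)).trans_eq ?_
  · refine (norm_sub_le _ _).trans ?_
    rw [norm_mul, Complex.norm_two]
    have h1 : (1 : ℝ) ≤ 1 / η := (one_le_div hη).2 hz1
    have h5 : (5 : ℝ) / η = 5 * (1 / η) := by ring
    linarith [norm_trS_le (n := n) hz A]
  · rw [norm_div, norm_mul, Complex.norm_natCast, div_le_iff₀ (by positivity)]
    refine (norm_sum_le _ _).trans ((sum_le_sum fun i _ => (norm_sum_le _ _).trans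
      (sum_le_sum (g := fun _ => 2 / η ^ 3 / (n : ℝ)) fun j _ => ?_)).trans_eq ?_)
    · have hr : ∀ l, nrm (res n z A *ᵥ ev l) ≤ (1 / η) ^ 2 := fun l =>
        (nrm_res_le hz A _).trans_eq (by rw [nrm_ev, div_pow, one_pow])
      have hu : nrm (fun c => starRingEnd ℂ ((res n z A *ᵥ ev j) c)) ≤ (1 / η) ^ 2 :=
        (nrm_conj _).trans_le (hr j)
      have a := norm_dot_le zero_le_one (by positivity) ((nrm_ev i).trans_le (one_pow 2).ge) hu
      have b := norm_dot_le (by positivity) (by positivity) (hr i) hu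
      rw [norm_div, norm_mul, norm_mul, Complex.norm_two, Complex.norm_natCast]
      refine div_le_div_of_nonneg_right ?_ hnr.le
      refine (mul_le_mul_of_nonneg_left (mul_le_mul a b (norm_nonneg _) (by positivity)) zero_le_two).trans_eq ?_
      field_simp
    · simp; field_simp
  · field_simp; ring

theorem re_integral_eq {f g h : (Fin n × Fin n → ℝ) → ℂ} (hf : Bd f) (hh : Bd h) (hg : Bd g)
    (hfg : ∫ A, f A ∂law n = ∫ A, (g A + h A) ∂law n) :
    ∫ A, (f A - h A).re ∂law n ≤ ∫ A, ‖g A‖ ∂law n := by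
  rw [show (fun A => (f A - h A).re) = fun A => Complex.reCLM (f A - h A) from rfl,
    Complex.reCLM.integral_comp_comm (hf.sub hh).integrable, Complex.reCLM_apply,
    integral_sub hf.integrable hh.integrable, hfg, integral_add hg.integrable hh.integrable,
    add_sub_cancel_right]
  exact (Complex.re_le_norm _).trans (norm_integral_le_integral_norm _)

theorem second_moment_trS (hn : 0 < n) (hz : 0 < z.im) (hz1 : z.im ≤ 1) (hz3 : ‖z‖ ≤ 3) :
    ∫ A, ‖eqS z A‖ ^ 2 ∂law n ≤ 15 / (n * z.im ^ 4) := by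
  set Φ := fun A : Fin n × Fin n → ℝ => starRingEnd ℂ (eqS z A)
  set K := fun A => ∑ p, psi z p A * starRingEnd ℂ ((z - 2 * trS z A) * dtr z p A)
  have hbΦ : Bd Φ := (bd_eqS hz).conj
  have hD : ∀ p : Fin n × Fin n, Bd fun A => starRingEnd ℂ ((z - 2 * trS z A) * dtr z p A) := fun p =>
    (((bd_const z).sub ((bd_const 2).mul (bd_trS hz))).mul (bd_dtr hz p)).conj
  have hI := ibp_sum (fun p => (bd_psi hz p).mul hbΦ)
    (fun p => ((bd_psi' hz p).mul hbΦ).add ((bd_psi hz p).mul (hD p)))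
    fun p A x => (hasDerivAt_psi hz A p x).mul (hasDerivAt_conj_eqS hz A p x)
  have hbK : Bd K := bd_sum _ fun p _ => (bd_psi hz p).mul (hD p)
  have hbg : Bd fun A => trS2 z A / n * Φ A + K A := (((bd_trS2 hz).div_const _).mul hbΦ).add hbK
  have hsq : Bd fun A => trS z A ^ 2 * Φ A := by
    simpa only [pow_two] using ((bd_trS hz).mul (bd_trS hz)).mul hbΦ
  have h1 : Bd fun A => (z * trS z A - 1) * Φ A :=
    (((bd_const z).mul (bd_trS hz)).sub (bd_const 1)).mul hbΦ
  have hfg : ∫ A, (z * trS z A - 1) * Φ A ∂law n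
      = ∫ A, ((trS2 z A / n * Φ A + K A) + trS z A ^ 2 * Φ A) ∂law n := by
    rw [← integral_congr_ae (ae_of_all _ fun A => show ∑ p, (A p : ℂ) * (psi z p A * Φ A) = _ by
      simp only [← mul_assoc, ← sum_mul, sum_psi hn hz]), hI]
    refine integral_congr_ae (ae_of_all _ fun A => ?_)
    simp only [sum_add_distrib, ← sum_mul, sum_psi' hz, K]
    ring
  have hpt : ∀ A, ‖eqS z A‖ ^ 2 = ((z * trS z A - 1) * Φ A - trS z A ^ 2 * Φ A).re := fun A => by
    rw [norm_sq_eq_re, ← sub_mul]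
    rfl
  simp only [hpt]
  refine (re_integral_eq h1 hsq hbg hfg).trans ?_
  refine (integral_mono hbg.integrable.norm (integrable_const (15 / (n * z.im ^ 4))) fun A => ?_).trans
    (by simp)
  refine (norm_add_le _ _).trans ?_
  rw [norm_mul, norm_div, Complex.norm_natCast, RCLike.norm_conj]
  refine (add_le_add (mul_le_mul (div_le_div_of_nonneg_right (norm_trS2_le hn hz A) n.cast_nonneg)
    (norm_eqS_le hz hz1 hz3 A) (norm_nonneg _) (by positivity)) (norm_cross_trS hn hz hz1 hz3 A)).trans_eq ?_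
  field_simp
  ring

/-! #### The Gibbs mean -/

/-- The equation of the Gibbs mean, with slope `a`. -/
noncomputable def eqG (z a : ℂ) (A : Fin n × Fin n → ℝ) : ℂ := a * gibR z A - 1

/-- The test field of the Gibbs mean. -/
noncomputable def phi (z : ℂ) (p : Fin n × Fin n) (A : Fin n × Fin n → ℝ) : ℂ :=
  ∑ x, (wt1 x A : ℂ) * (eb p (sv x) (res n z A *ᵥ sv x) / n)

/-- Its derivative along the coordinate. -/
noncomputable def phi' (z : ℂ) (p : Fin n × Fin n) (A : Fin n × Fin n → ℝ) : ℂ :=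
  ∑ x, (dwt p x A * (eb p (sv x) (res n z A *ᵥ sv x) / n)
    + (wt1 x A : ℂ) * ((eb p (sv x) fun b => eb p (res n z A *ᵥ ev b) (res n z A *ᵥ sv x)) / n))

/-- The derivative of the Gibbs mean along a coordinate. -/
noncomputable def dgib (z : ℂ) (p : Fin n × Fin n) (A : Fin n × Fin n → ℝ) : ℂ :=
  ∑ x, (dwt p x A * qf z x x A + (wt1 x A : ℂ) * (eb p (res n z A *ᵥ sv x) (res n z A *ᵥ sv x) / n))

/-- The correction by the overlap. -/
noncomputable def crR (z : ℂ) (A : Fin n × Fin n → ℝ) : ℂ :=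
  ∑ x, ∑ y, (wt1 x A : ℂ) * (wt1 y A : ℂ) * (ov y x : ℂ) * qf z y x A

/-- The Gibbs mean of the form of the squared resolvent. -/
noncomputable def gibR2 (z : ℂ) (A : Fin n × Fin n → ℝ) : ℂ :=
  ∑ y, (wt1 y A : ℂ) * (((res n z A *ᵥ sv y) ⬝ᵥ (res n z A *ᵥ sv y)) / n)

theorem bd_dwt (p : Fin n × Fin n) (x : Fin n → Bool) : Bd (dwt p x) :=
  ((bd_wt1 x).div_const _).mul ((bd_const _).sub (bd_sum _ fun y _ => (bd_wt1 y).mul (bd_const _)))

theorem bd_phi (hz : 0 < z.im) (p : Fin n × Fin n) : Bd (phi z p) :=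
  bd_sum _ fun x _ => (bd_wt1 x).mul ((bd_eb_res hz (sv x) (sv x) p).div_const _)

theorem bd_phi' (hz : 0 < z.im) (p : Fin n × Fin n) : Bd (phi' z p) :=
  bd_sum _ fun x _ =>
    ((bd_dwt p x).mul ((bd_eb_res hz (sv x) (sv x) p).div_const _)).add
      ((bd_wt1 x).mul ((bd_eb_res' hz (sv x) (sv x) p).div_const _))

theorem bd_dgib (hz : 0 < z.im) (p : Fin n × Fin n) : Bd (dgib z p) :=
  bd_sum _ fun x _ => ((bd_dwt p x).mul (bd_qf hz x x)).add
    ((bd_wt1 x).mul ((bd_eb (bd_mulVec hz (sv x)) (bd_mulVec hz (sv x)) p).div_const _))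

theorem bd_crR (hz : 0 < z.im) : Bd (crR (n := n) z) :=
  bd_sum _ fun x _ => bd_sum _ fun y _ => (((bd_wt1 x).mul (bd_wt1 y)).mul (bd_const _)).mul (bd_qf hz y x)

theorem bd_gibR2 (hz : 0 < z.im) : Bd (gibR2 (n := n) z) :=
  bd_sum _ fun y _ => (bd_wt1 y).mul
    ((bd_sum _ fun b _ => (bd_mulVec hz (sv y) b).mul (bd_mulVec hz (sv y) b)).div_const _)

theorem hasDerivAt_phi (hz : 0 < z.im) (A : Fin n × Fin n → ℝ) (p : Fin n × Fin n) (t : ℝ) :
    HasDerivAt (fun y => phi z p (Function.update A p y)) (phi' z p (Function.update A p t)) t :=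
  HasDerivAt.fun_sum fun x _ => (hasDerivAt_wt1 A p x t).mul
    ((hasDerivAt_eb_right hz A p (sv x) (sv x) t).div_const _)

theorem hasDerivAt_conj_eqG (hz : 0 < z.im) (a : ℂ) (A : Fin n × Fin n → ℝ) (p : Fin n × Fin n) (t : ℝ) :
    HasDerivAt (fun y => starRingEnd ℂ (eqG z a (Function.update A p y)))
      (starRingEnd ℂ (a * dgib z p (Function.update A p t))) t := by
  have h : HasDerivAt (fun y => gibR z (Function.update A p y)) (dgib z p (Function.update A p t)) t :=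
    HasDerivAt.fun_sum fun x _ => (hasDerivAt_wt1 A p x t).mul (hasDerivAt_qf hz A p x x t)
  exact Complex.conjCLE.toContinuousLinearMap.hasFDerivAt.comp_hasDerivAt t
    ((h.const_mul a).sub_const 1)

theorem sum_wt1_cast (A : Fin n × Fin n → ℝ) : ∑ y, (wt1 y A : ℂ) = 1 := by
  rw [← Complex.ofReal_sum, sum_wt1, Complex.ofReal_one]

theorem ov_self (hn : 0 < n) (x : Fin n → Bool) : ov x x = 1 := by
  have : ∀ b, P166.spin b * P166.spin b = 1 := fun b => by cases b <;> simp [P166.spin]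
  simp [ov, this, (Nat.cast_pos.2 hn : (0 : ℝ) < n).ne']

theorem sum_phi (hn : 0 < n) (hz : 0 < z.im) (A : Fin n × Fin n → ℝ) :
    ∑ p, (A p : ℂ) * phi z p A = z * gibR z A - 1 := by
  have hn' : (n : ℂ) ≠ 0 := Nat.cast_ne_zero.2 hn.ne'
  have hq : ∀ y : Fin n → Bool, ∑ p, (A p : ℂ) * (eb p (sv y) (res n z A *ᵥ sv y) / n)
      = z * qf z y y A - 1 := fun y => by
    have := one_eq hz A (sv y)
    rw [dot_sv (x := y) (y := y), ov_self hn, Complex.ofReal_one, mul_one] at this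
    simp only [mul_div_assoc', ← sum_div, qf]
    field_simp
    linear_combination -this
  simp only [phi, mul_sum, mul_left_comm _ ((wt1 _ A : ℝ) : ℂ)]
  rw [sum_comm]
  simp only [← mul_sum, hq, mul_sub, sum_sub_distrib, mul_one, sum_wt1_cast, gibR]
  rw [mul_sum]
  congr 1
  exact sum_congr rfl fun y _ => by ring

theorem sum_dwt_eb (hn : 0 < n) (A : Fin n × Fin n → ℝ) (x : Fin n → Bool) (v : Fin n → ℂ) :
    ∑ p, dwt p x A * (eb p (sv x) v / n) = (wt1 x A : ℂ) * ((sv x ⬝ᵥ v) / n)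
      - ∑ y, (wt1 x A : ℂ) * (wt1 y A : ℂ) * (ov y x : ℂ) * ((sv y ⬝ᵥ v) / n) := by
  have hn' : (n : ℂ) ≠ 0 := Nat.cast_ne_zero.2 hn.ne'
  have e1 : ∀ p, dwt p x A * (eb p (sv x) v / n)
      = (wt1 x A : ℂ) / 2 / n * (eb p (sv x) (sv x) * eb p (sv x) v)
        - ∑ y, (wt1 x A : ℂ) / 2 / n * (wt1 y A : ℂ) * (eb p (sv y) (sv y) * eb p (sv x) v) := fun p => by
    simp only [dwt, mul_sub, sub_mul, mul_sum, sum_mul]
    congr 1
    · ring
    · exact sum_congr rfl fun y _ => by ring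
  simp only [e1, sum_sub_distrib]
  rw [sum_comm]
  simp only [← mul_sum, contr, dot_sv, ov_self hn, Complex.ofReal_one]
  congr 1
  · field_simp; ring
  · exact sum_congr rfl fun y _ => by field_simp; ring

theorem sum_phi' (hn : 0 < n) (hz : 0 < z.im) (A : Fin n × Fin n → ℝ) :
    ∑ p, phi' z p A = gibR2 z A / n + trS z A * gibR z A + gibR z A - crR z A := by
  have hn' : (n : ℂ) ≠ 0 := Nat.cast_ne_zero.2 hn.ne'
  have h : ∀ x, ∑ p, (dwt p x A * (eb p (sv x) (res n z A *ᵥ sv x) / n)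
        + (wt1 x A : ℂ) * ((eb p (sv x) fun b => eb p (res n z A *ᵥ ev b) (res n z A *ᵥ sv x)) / n))
      = (wt1 x A : ℂ) * (((res n z A *ᵥ sv x) ⬝ᵥ (res n z A *ᵥ sv x)) / n) / n
        + trS z A * ((wt1 x A : ℂ) * qf z x x A) + (wt1 x A : ℂ) * qf z x x A
        - ∑ y, (wt1 x A : ℂ) * (wt1 y A : ℂ) * (ov y x : ℂ) * qf z y x A := fun x => by
    rw [sum_add_distrib, sum_dwt_eb hn, ← mul_sum, ← sum_div, contr_res A hz]
    simp only [qf, trS]
    ring
  simp only [phi', gibR2, gibR, crR]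
  rw [sum_comm, sum_congr rfl fun x _ => h x, sum_sub_distrib, sum_add_distrib, sum_add_distrib,
    ← sum_div, ← mul_sum]

theorem norm_crR_le (hz : 0 < z.im) (A : Fin n × Fin n → ℝ) : ‖crR z A‖ ≤ absOv A / z.im := by
  rw [absOv, sum_div]
  refine (norm_sum_le _ _).trans (sum_le_sum fun x _ => ?_)
  rw [sum_div]
  refine (norm_sum_le _ _).trans (sum_le_sum fun y _ => ?_)
  rw [norm_mul, norm_mul, norm_mul, Complex.norm_of_nonneg (wt1_nonneg x A),
    Complex.norm_of_nonneg (wt1_nonneg y A), Complex.norm_real, Real.norm_eq_abs,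
    div_eq_mul_one_div, show ov y x = ov x y from by simp [ov, mul_comm]]
  exact mul_le_mul_of_nonneg_left (norm_qf_le hz y x A)
    (mul_nonneg (mul_nonneg (wt1_nonneg x A) (wt1_nonneg y A)) (abs_nonneg _))

theorem nrm_sv_le (y : Fin n → Bool) : nrm (sv y) ≤ √n ^ 2 := by
  rw [nrm_sv, Real.sq_sqrt n.cast_nonneg]

theorem norm_gibR2_le (hn : 0 < n) (hz : 0 < z.im) (A : Fin n × Fin n → ℝ) :
    ‖gibR2 z A‖ ≤ 1 / z.im ^ 2 := norm_avg_le fun y => by
  rw [norm_div, Complex.norm_natCast, div_le_iff₀ (Nat.cast_pos.2 hn)]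
  refine (norm_dot_le (by positivity) (by positivity) (nrm_res_sv hz A y) (nrm_res_sv hz A y)).trans_eq ?_
  rw [div_mul_div_comm, Real.mul_self_sqrt n.cast_nonneg]; ring

/-- The cross term with the derivatives of the forms. -/
noncomputable def crossQ (z : ℂ) (A : Fin n × Fin n → ℝ) : ℂ :=
  ∑ y, (wt1 y A : ℂ) * ∑ x, (wt1 x A : ℂ) *
    (2 * (sv y ⬝ᵥ fun c => starRingEnd ℂ ((res n z A *ᵥ sv x) c)) *
      ((res n z A *ᵥ sv y) ⬝ᵥ fun c => starRingEnd ℂ ((res n z A *ᵥ sv x) c)) / n / (n * n))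

/-- The cross term with the derivatives of the weights. -/
noncomputable def crossW (z : ℂ) (A : Fin n × Fin n → ℝ) : ℂ :=
  ∑ y, ∑ x, (wt1 y A : ℂ) * (wt1 x A : ℂ) *
    ((starRingEnd ℂ (qf z x x A) - starRingEnd ℂ (gibR z A)) * ((ov y x : ℂ) * qf z x y A))

theorem conj_dgib (p : Fin n × Fin n) (A : Fin n × Fin n → ℝ) :
    starRingEnd ℂ (dgib z p A) = ∑ x, ((wt1 x A : ℂ) *
      (starRingEnd ℂ (qf z x x A) - starRingEnd ℂ (gibR z A)) / 2 * eb p (sv x) (sv x)
      + (wt1 x A : ℂ) * (eb p (fun c => starRingEnd ℂ ((res n z A *ᵥ sv x) c))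
          (fun c => starRingEnd ℂ ((res n z A *ᵥ sv x) c)) / n)) := by
  have hsv : ∀ y : Fin n → Bool, (fun b => starRingEnd ℂ (sv y b)) = sv y := fun y => by
    funext b; simp [sv]
  simp only [dgib, dwt, gibR, map_sum, map_add, map_mul, map_sub, map_div₀, map_natCast, map_ofNat,
    Complex.conj_ofReal, conj_eb, hsv, sum_add_distrib]
  congr 1
  simp only [mul_sub, sub_mul, sub_div, mul_sum, sum_mul, sum_div, sum_sub_distrib]
  congr 1
  · exact sum_congr rfl fun x _ => by ring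
  · rw [sum_comm]
    exact sum_congr rfl fun x _ => sum_congr rfl fun y _ => by ring

theorem sum_phi_dgib (hn : 0 < n) (A : Fin n × Fin n → ℝ) :
    ∑ p, phi z p A * starRingEnd ℂ (dgib z p A) = crossW z A + crossQ z A := by
  have hn' : (n : ℂ) ≠ 0 := Nat.cast_ne_zero.2 hn.ne'
  simp only [conj_dgib, phi, sum_mul_sum]
  rw [sum_comm]
  simp only [crossW, crossQ, mul_sum, ← sum_add_distrib]
  refine sum_congr rfl fun y _ => ?_
  rw [sum_comm]
  refine sum_congr rfl fun x _ => ?_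
  have e : ∀ p, (wt1 y A : ℂ) * (eb p (sv y) (res n z A *ᵥ sv y) / n) * ((wt1 x A : ℂ) *
        (starRingEnd ℂ (qf z x x A) - starRingEnd ℂ (gibR z A)) / 2 * eb p (sv x) (sv x)
        + (wt1 x A : ℂ) * (eb p (fun c => starRingEnd ℂ ((res n z A *ᵥ sv x) c))
          (fun c => starRingEnd ℂ ((res n z A *ᵥ sv x) c)) / n))
      = (wt1 y A : ℂ) * (wt1 x A : ℂ) * (starRingEnd ℂ (qf z x x A) - starRingEnd ℂ (gibR z A)) / 2 / n
          * (eb p (sv y) (res n z A *ᵥ sv y) * eb p (sv x) (sv x))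
        + (wt1 y A : ℂ) * (wt1 x A : ℂ) / (n * n)
          * (eb p (sv y) (res n z A *ᵥ sv y) * eb p (fun c => starRingEnd ℂ ((res n z A *ᵥ sv x) c))
            (fun c => starRingEnd ℂ ((res n z A *ᵥ sv x) c))) := fun p => by ring
  rw [sum_congr rfl fun p _ => e p, sum_add_distrib, ← mul_sum, ← mul_sum, contr, contr,
    dot_sv, dotProduct_comm (res n z A *ᵥ sv y) (sv x)]
  simp only [qf]
  field_simp
  ring

theorem norm_crossQ_le (hn : 0 < n) (hz : 0 < z.im) (A : Fin n × Fin n → ℝ) :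
    ‖crossQ z A‖ ≤ 2 / (n * z.im ^ 3) := norm_avg_le fun y => norm_avg_le fun x => by
  have hη : 0 < z.im := hz
  have hnr : (0 : ℝ) < n := Nat.cast_pos.2 hn
  have hc : nrm (fun c => starRingEnd ℂ ((res n z A *ᵥ sv x) c)) ≤ (√n / z.im) ^ 2 :=
    (nrm_conj _).trans_le (nrm_res_sv hz A x)
  have k1 := norm_dot_le (Real.sqrt_nonneg n) (by positivity) (nrm_sv_le y) hc
  have k2 := norm_dot_le (by positivity) (by positivity) (nrm_res_sv hz A y) hc
  rw [norm_div, norm_div, norm_mul, norm_mul, norm_mul, Complex.norm_two, Complex.norm_natCast]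
  refine (div_le_div_of_nonneg_right (div_le_div_of_nonneg_right (mul_le_mul
    (mul_le_mul_of_nonneg_left k1 zero_le_two) k2 (norm_nonneg _) (by positivity)) hnr.le)
    (by positivity)).trans_eq ?_
  field_simp
  rw [show √(n : ℝ) ^ 4 = (√n * √n) * (√n * √n) by ring, Real.mul_self_sqrt n.cast_nonneg]
  ring

theorem norm_crossW_le (hz : 0 < z.im) (A : Fin n × Fin n → ℝ) :
    ‖crossW z A‖ ≤ 2 * absOv A / z.im ^ 2 := by
  rw [absOv, mul_sum, sum_div]
  refine (norm_sum_le _ _).trans (sum_le_sum fun y _ => ?_)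
  rw [mul_sum, sum_div]
  refine (norm_sum_le _ _).trans (sum_le_sum fun x _ => ?_)
  rw [norm_mul, norm_mul, norm_mul, norm_mul, Complex.norm_of_nonneg (wt1_nonneg x A),
    Complex.norm_of_nonneg (wt1_nonneg y A), Complex.norm_real, Real.norm_eq_abs]
  have k1 : ‖starRingEnd ℂ (qf z x x A) - starRingEnd ℂ (gibR z A)‖ ≤ 2 / z.im := by
    refine (norm_sub_le _ _).trans ?_
    rw [RCLike.norm_conj, RCLike.norm_conj]
    have h5 : (2 : ℝ) / z.im = 1 / z.im + 1 / z.im := by ring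
    linarith [norm_qf_le hz x x A, norm_gibR_le (n := n) hz A]
  refine (mul_le_mul_of_nonneg_left (mul_le_mul k1
    (mul_le_mul_of_nonneg_left (norm_qf_le hz x y A) (abs_nonneg _)) (by positivity) (by positivity))
    (mul_nonneg (wt1_nonneg y A) (wt1_nonneg x A))).trans_eq ?_
  field_simp

theorem norm_eqG_le (hz : 0 < z.im) (hz1 : z.im ≤ 1) {a : ℂ} (ha : ‖a‖ ≤ 1) (A : Fin n × Fin n → ℝ) :
    ‖eqG z a A‖ ≤ 2 / z.im := by
  refine (norm_sub_le _ _).trans ?_
  rw [norm_mul, norm_one]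
  have h := mul_le_mul ha (norm_gibR_le (n := n) hz A) (norm_nonneg _) zero_le_one
  have h1 : (1 : ℝ) ≤ 1 / z.im := (one_le_div hz).2 hz1
  have h5 : (2 : ℝ) / z.im = 2 * (1 / z.im) := by ring
  linarith

theorem norm_cross_gibR (hn : 0 < n) (hz : 0 < z.im) {a : ℂ} (ha : ‖a‖ ≤ 1) (A : Fin n × Fin n → ℝ) :
    ‖∑ p, phi z p A * starRingEnd ℂ (a * dgib z p A)‖
      ≤ 2 / (n * z.im ^ 3) + 2 * absOv A / z.im ^ 2 := by
  simp only [map_mul, mul_left_comm _ (starRingEnd ℂ a), ← mul_sum, sum_phi_dgib hn]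
  rw [norm_mul, RCLike.norm_conj]
  refine (mul_le_of_le_one_left (norm_nonneg _) ha).trans ((norm_add_le _ _).trans ?_)
  linarith [norm_crossW_le hz A, norm_crossQ_le hn hz A]

theorem norm_errG (hn : 0 < n) (hz : 0 < z.im) (hz1 : z.im ≤ 1) {x a : ℂ} (ha : ‖a‖ ≤ 1)
    (A : Fin n × Fin n → ℝ) :
    ‖((trS z A - x) * gibR z A + gibR2 z A / n - crR z A) * starRingEnd ℂ (eqG z a A)
      + ∑ p, phi z p A * starRingEnd ℂ (a * dgib z p A)‖
      ≤ 2 / z.im ^ 2 * ‖trS z A - x‖ + 4 / z.im ^ 2 * absOv A + 4 / (n * z.im ^ 3) := by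
  refine (norm_add_le _ _).trans ?_
  rw [norm_mul, RCLike.norm_conj]
  have k : ‖(trS z A - x) * gibR z A + gibR2 z A / (n : ℂ) - crR z A‖
      ≤ ‖trS z A - x‖ * (1 / z.im) + 1 / z.im ^ 2 / n + absOv A / z.im := by
    refine (norm_sub_le _ _).trans (add_le_add ((norm_add_le _ _).trans (add_le_add ?_ ?_))
      (norm_crR_le hz A))
    · rw [norm_mul]; exact mul_le_mul_of_nonneg_left (norm_gibR_le hz A) (norm_nonneg _)
    · rw [norm_div, Complex.norm_natCast]
      exact div_le_div_of_nonneg_right (norm_gibR2_le hn hz A) n.cast_nonneg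
  refine (add_le_add (mul_le_mul k (norm_eqG_le hz hz1 ha A) (norm_nonneg _) ((norm_nonneg _).trans k))
    (norm_cross_gibR hn hz ha A)).trans_eq ?_
  field_simp
  ring

theorem second_moment_gibR (hn : 0 < n) (hz : 0 < z.im) (hz1 : z.im ≤ 1) (x : ℂ)
    (ha : ‖z - 1 - x‖ ≤ 1) :
    ∫ A, ‖eqG z (z - 1 - x) A‖ ^ 2 ∂law n ≤
      2 / z.im ^ 2 * ∫ A, ‖trS z A - x‖ ∂law n
        + 4 / z.im ^ 2 * ∫ A, absOv A ∂law n + 4 / (n * z.im ^ 3) := by
  set a := z - 1 - x
  set Φ := fun A : Fin n × Fin n → ℝ => starRingEnd ℂ (eqG z a A)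
  set K := fun A => ∑ p, phi z p A * starRingEnd ℂ (a * dgib z p A)
  have hbΦ : Bd Φ := (((bd_const a).mul (bd_gibR hz)).sub (bd_const 1)).conj
  have hD : ∀ p : Fin n × Fin n, Bd fun A => starRingEnd ℂ (a * dgib z p A) := fun p =>
    ((bd_const a).mul (bd_dgib hz p)).conj
  have hI := ibp_sum (fun p => (bd_phi hz p).mul hbΦ)
    (fun p => ((bd_phi' hz p).mul hbΦ).add ((bd_phi hz p).mul (hD p)))
    fun p A t => (hasDerivAt_phi hz A p t).mul (hasDerivAt_conj_eqG hz a A p t)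
  have hbK : Bd K := bd_sum _ fun p _ => (bd_phi hz p).mul (hD p)
  have hbg : Bd fun A => ((trS z A - x) * gibR z A + gibR2 z A / n - crR z A) * Φ A + K A :=
    (((((bd_trS hz).sub (bd_const x)).mul (bd_gibR hz)).add ((bd_gibR2 hz).div_const _)).sub
      (bd_crR hz)).mul hbΦ |>.add hbK
  have h1 : Bd fun A => (z * gibR z A - 1) * Φ A :=
    (((bd_const z).mul (bd_gibR hz)).sub (bd_const 1)).mul hbΦ
  have h2 : Bd fun A => (x * gibR z A + gibR z A) * Φ A :=
    (((bd_const x).mul (bd_gibR hz)).add (bd_gibR hz)).mul hbΦ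
  have hfg : ∫ A, (z * gibR z A - 1) * Φ A ∂law n = ∫ A,
      ((((trS z A - x) * gibR z A + gibR2 z A / n - crR z A) * Φ A + K A)
        + (x * gibR z A + gibR z A) * Φ A) ∂law n := by
    rw [← integral_congr_ae (ae_of_all _ fun A => show ∑ p, (A p : ℂ) * (phi z p A * Φ A) = _ by
      simp only [← mul_assoc, ← sum_mul, sum_phi hn hz]), hI]
    refine integral_congr_ae (ae_of_all _ fun A => ?_)
    simp only [sum_add_distrib, ← sum_mul, sum_phi' hn hz, K]
    ring
  have hpt : ∀ A, ‖eqG z a A‖ ^ 2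
      = ((z * gibR z A - 1) * Φ A - (x * gibR z A + gibR z A) * Φ A).re := fun A => by
    rw [norm_sq_eq_re, ← sub_mul]
    congr 2
    simp only [eqG, a]
    ring
  simp only [hpt]
  refine (re_integral_eq h1 h2 hbg hfg).trans ?_
  have i1 : Integrable (fun A => 2 / z.im ^ 2 * ‖trS z A - x‖) (law n) :=
    (((bd_trS hz).sub (bd_const x)).integrable.norm).const_mul _
  have i2 : Integrable (fun A => 4 / z.im ^ 2 * absOv A) (law n) := by
    simpa using (bd_absOv (n := n)).integrable.re.const_mul (4 / z.im ^ 2)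
  refine (integral_mono hbg.integrable.norm ((i1.add i2).add (integrable_const _))
    (norm_errG hn hz hz1 ha)).trans_eq ?_
  simp only [Pi.add_apply]
  rw [integral_add ?_ (integrable_const _), integral_add i1 i2, integral_const_mul, integral_const_mul]
  · simp
  · exact i1.add i2

end Vale.Agent.P150.Rate
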