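import Vale.Agent.P150.Glauber

/-!
# P150: mixing takes as long as the best linear statistic relaxes, up to a logarithm
-/

open MeasureTheory Real

namespace Vale.Agent.P150

variable {n : ℕ} {β : ℝ} {g : Edge n → ℝ}

theorem tv_gt_of_linStat (hn : 0 < n) {v : Fin n → ℝ} {δ t : ℝ} (hd : 0 < δ) (hd1 : δ ≤ 1)
    (hv : 0 < ∑ j, v j ^ 2)
    (hvar : ∑ j, v j ^ 2 ≤ δ * ∑ x, gibbs n β g x * linStat v x ^ 2)
    (ht0 : 0 ≤ t) (ht : t * (δ * (1 + Real.log n)) ≤ 1 / 16) :
    ∃ x, 1 / 4 < tvDist n β g t x := by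
  by_contra hcon
  push Not at hcon
  set k := Nat.log 2 n + 2 with hk
  have hb := tv_boost hn hcon k (by omega)
  have hn' : (0 : ℝ) < n := by exact_mod_cast hn
  set f := linStat v
  set V := ∑ j, v j ^ 2
  set I := ∑ x, gibbs n β g x * f x ^ 2
  have hpow : (1 / 2 : ℝ) ^ k * n ≤ 1 / 2 := by
    have h := Nat.lt_pow_succ_log_self (b := 2) one_lt_two n
    have h' : (n : ℝ) ≤ 2 ^ (Nat.log 2 n + 1) := by exact_mod_cast h.le
    rw [hk, show Nat.log 2 n + 2 = (Nat.log 2 n + 1) + 1 by ring, pow_succ, div_pow, one_pow,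
      mul_one_div, div_div, div_mul_eq_mul_div, one_mul, div_le_iff₀ (by positivity)]
    linarith
  have hklog : (k : ℝ) ≤ 2 * (1 + Real.log n) := by
    have h := Nat.pow_log_le_self 2 hn.ne'
    have h' : ((2 : ℝ) ^ Nat.log 2 n) ≤ n := by exact_mod_cast h
    have h'' := Real.log_le_log (by positivity) h'
    rw [Real.log_pow] at h''
    rw [hk]; push_cast
    nlinarith [Real.log_two_gt_d9, (Nat.log 2 n).cast_nonneg (α := ℝ)]
  have hf : ∀ x, |f x| ≤ ∑ j, |v j| := fun x => (Finset.abs_sum_le_sum_abs _ _).trans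
    (le_of_eq (Finset.sum_congr rfl fun j _ => by rw [abs_mul, abs_spin, mul_one]))
  have hM : (∑ j, |v j|) * (∑ j, |v j|) ≤ n * V := by
    have := sq_sum_le_card_mul_sum_sq (s := Finset.univ) (f := fun j => |v j|)
    simpa [sq, V] using this
  have hP : ∀ x, |(kernel n β g (k * t)).mulVec f x| ≤ (1 / 2) ^ k * ∑ j, |v j| := fun x => by
    have e : (kernel n β g (k * t)).mulVec f x = ∑ y, (kernel n β g (k * t) x y - gibbs n β g y) * f y := by
      simp only [sub_mul, Finset.sum_sub_distrib, Matrix.mulVec, dotProduct]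
      rw [mean_linStat, sub_zero]
    rw [e]
    refine (Finset.abs_sum_le_sum_abs _ _).trans ?_
    calc ∑ y, |(kernel n β g (k * t) x y - gibbs n β g y) * f y|
        ≤ ∑ y, |kernel n β g (k * t) x y - gibbs n β g y| * ∑ j, |v j| :=
          Finset.sum_le_sum fun y _ => by rw [abs_mul]; exact mul_le_mul_of_nonneg_left (hf y) (abs_nonneg _)
      _ ≤ _ := by
          rw [← Finset.sum_mul]
          exact mul_le_mul_of_nonneg_right (hb x) (Finset.sum_nonneg fun j _ => abs_nonneg _)
  have hip : ip n β g f ((kernel n β g (k * t)).mulVec f) ≤ (1 / 2) ^ k * (n * V) := by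
    calc ip n β g f ((kernel n β g (k * t)).mulVec f)
        ≤ ∑ x, gibbs n β g x * ((1 / 2) ^ k * ((∑ j, |v j|) * ∑ j, |v j|)) := by
          refine Finset.sum_le_sum fun x _ => ?_
          rw [mul_assoc]
          refine mul_le_mul_of_nonneg_left ?_ (gibbs_pos n β g x).le
          rw [mul_left_comm]
          refine (le_abs_self _).trans ?_
          rw [abs_mul]
          exact mul_le_mul (hf x) (hP x) (abs_nonneg _) (Finset.sum_nonneg fun j _ => abs_nonneg _)
      _ ≤ _ := by
          rw [← Finset.sum_mul, sum_gibbs, one_mul]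
          exact mul_le_mul_of_nonneg_left hM (by positivity)
  have hI : ip n β g f f = I := Finset.sum_congr rfl fun x _ => by ring
  have hkt : 0 ≤ (k : ℝ) * t := by positivity
  have h1 := kernel_ip_le (β := β) (g := g) hn hkt f
  rw [hI] at h1
  have h2 := mul_le_mul_of_nonneg_left (dirichlet_linStat_le (β := β) (g := g) v) hkt
  have h3 : (k : ℝ) * t * δ ≤ 1 / 8 := by
    nlinarith [mul_le_mul_of_nonneg_right hklog (mul_nonneg ht0 hd.le)]
  have h4 : (1 / 2 : ℝ) ^ k * (n * V) ≤ V / 2 := by nlinarith [mul_le_mul_of_nonneg_right hpow hv.le]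
  have h5 : δ * I ≤ V / 8 + δ * (V / 2) := by
    nlinarith [mul_le_mul_of_nonneg_left (show I ≤ k * t * V + V / 2 by linarith) hd.le,
      mul_le_mul_of_nonneg_right h3 hv.le]
  nlinarith [mul_le_mul_of_nonneg_right hd1 hv.le]

end Vale.Agent.P150
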