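import Vale.Agent.P150.Rate.Identity
import Vale.Agent.P150.Rate.Overlap
import Vale.Agent.P150.Rate.Time
import Vale.Agent.P150.Crit.Test

/-!
# P150 rate: polynomial slowdown at the critical temperature

At a point near the edge of the spectrum the Gibbs mean of the resolvent is large while the
normalised trace has small imaginary part, so one linear statistic has a variance that is a power
of `n` times its Dirichlet form.
-/

open MeasureTheory Matrix Finset Filter Topology
open Vale.Agent.P146 (goe quad)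
open Vale.Agent.P146.Proj (split exponent_split mp_split)

namespace Vale.Agent.P150.Rate

variable {n : ℕ}

theorem wt1_eq (A : Fin n × Fin n → ℝ) (x : Fin n → Bool) : wt1 x A = gibbs n 1 (split n A).1 x := by
  simp only [wt1, gibbs, exponent_split, Real.exp_add, one_mul, ← sum_mul]
  exact mul_div_mul_right _ _ (Real.exp_pos _).ne'

/-- The resolvent seen in an eigenbasis: the imaginary parts are weighted sums. -/
theorem weights_of_res {z : ℂ} (hz : 0 < z.im) (A : Fin n × Fin n → ℝ) :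
    ∃ (v : Fin n → Fin n → ℝ) (w : Fin n → ℝ), (∀ i, ∑ j, v i j ^ 2 = 1) ∧ (∀ i, 0 ≤ w i) ∧
      ∑ i, w i = -((res n z A).trace.im) ∧
      ∑ i, w i * ∑ x, gibbs n 1 (split n A).1 x * linStat (v i) x ^ 2
        = -(∑ x, (wt1 x A : ℂ) * (sv x ⬝ᵥ (res n z A *ᵥ sv x))).im := by
  obtain ⟨V, lam, h1, h2, -, h⟩ := exists_res_eq hz A
  set W := V.map Complex.ofReal with hW
  refine ⟨fun i j => V i j, fun i => -((z - lam i)⁻¹).im, fun i => ?_, fun i => ?_, ?_, ?_⟩
  · have := congrFun (congrFun h1 i) i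
    simpa [Matrix.mul_apply, pow_two] using this
  · show 0 ≤ -((z - lam i)⁻¹).im
    rw [Complex.inv_im, neg_div, neg_neg]
    simp only [Complex.sub_im, Complex.ofReal_im, sub_zero]
    exact div_nonneg hz.le (Complex.normSq_nonneg _)
  · have hw : W * Wᵀ = 1 := by
      ext i j
      have := congrFun (congrFun h1 i) j
      simp only [Matrix.mul_apply, Matrix.transpose_apply] at this
      simp only [hW, Matrix.mul_apply, Matrix.transpose_apply, Matrix.map_apply, ← Complex.ofReal_mul,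
        ← Complex.ofReal_sum, this]
      simp [Matrix.one_apply]; split_ifs <;> simp
    rw [h, Matrix.trace_mul_comm, ← mul_assoc, hw, one_mul, Matrix.trace_diagonal, Complex.im_sum,
      sum_neg_distrib]
  · have hx : ∀ x, (sv x ⬝ᵥ (res n z A *ᵥ sv x))
        = ∑ i, (z - lam i)⁻¹ * ((linStat (fun j => V i j) x ^ 2 : ℝ) : ℂ) := fun x => by
      have hL : ∀ i, (W *ᵥ sv x) i = ((linStat (fun j => V i j) x : ℝ) : ℂ) := fun i => by
        simp [hW, mulVec, dotProduct, sv, linStat, show ∀ b, P166.spin b = spin b from fun b => rfl]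
      rw [h, ← mulVec_mulVec, ← mulVec_mulVec, dotProduct_mulVec, vecMul_transpose, dotProduct]
      refine sum_congr rfl fun i _ => ?_
      rw [mulVec_diagonal, hL]
      push_cast
      ring
    simp only [hx, mul_sum, Complex.im_sum, ← sum_neg_distrib]
    rw [sum_comm]
    refine sum_congr rfl fun i _ => sum_congr rfl fun x _ => ?_
    simp only [wt1_eq, Complex.mul_im, Complex.ofReal_im, Complex.ofReal_re, zero_mul, mul_zero,
      add_zero, zero_add]
    ring

theorem trS_im_nonpos {z : ℂ} (hz : 0 < z.im) (A : Fin n × Fin n → ℝ) : (trS z A).im ≤ 0 := by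
  obtain ⟨v, w, -, hw, hsum, -⟩ := weights_of_res hz A
  have h := sum_nonneg fun i (_ : i ∈ univ) => hw i
  rw [trS, Complex.div_natCast_im]
  exact div_nonpos_of_nonpos_of_nonneg (by linarith) n.cast_nonneg

/-- The slope at the parameter `r`. -/
noncomputable def slp (r : ℝ) : ℂ := (r : ℂ) * (1 + Complex.I)

/-- The root below the edge. -/
noncomputable def root (r : ℝ) : ℂ := (1 + slp r)⁻¹

/-- The spectral point. -/
noncomputable def pt (r : ℝ) : ℂ := root r + (1 + slp r)

theorem pt_props {r : ℝ} (h0 : 0 < r) (h1 : r ≤ 1 / 4) :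
    r ^ 2 ≤ (pt r).im ∧ (pt r).im ≤ 1 ∧ ‖pt r‖ ≤ 3 ∧ -r ≤ (root r).im ∧ ‖slp r‖ ≤ 1
      ∧ root r * (1 + slp r) = 1 := by
  have hre : (1 + slp r).re = 1 + r := by simp [slp]
  have him : (1 + slp r).im = r := by simp [slp]
  have hsq : (1 : ℝ) ≤ Complex.normSq (1 + slp r) := by rw [Complex.normSq_apply, hre, him]; nlinarith
  have hne : (1 + slp r) ≠ 0 := fun h => by rw [h, map_zero] at hsq; linarith
  have hri : (root r).im = -(r / Complex.normSq (1 + slp r)) := by
    rw [root, Complex.inv_im, him, neg_div]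
  have hsl : ‖slp r‖ ≤ 2 * r := by
    rw [slp, norm_mul, Complex.norm_of_nonneg h0.le]
    have := norm_add_le (1 : ℂ) Complex.I
    rw [norm_one, Complex.norm_I] at this
    nlinarith [norm_nonneg (1 + Complex.I)]
  have hrn : ‖root r‖ ≤ 1 := by
    rw [root, norm_inv]
    refine inv_le_one_of_one_le₀ ?_
    have h := Complex.re_le_norm (1 + slp r)
    linarith
  have hN := Complex.normSq_apply (1 + slp r)
  rw [hre, him] at hN
  set N := Complex.normSq (1 + slp r)
  have hq : r / N * N = r := div_mul_cancel₀ _ (by linarith)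
  refine ⟨?_, ?_, ?_, ?_, by linarith, by rw [root, inv_mul_cancel₀ hne]⟩
  · rw [pt, Complex.add_im, hri, him]
    have : 2 * r + 2 * r ^ 2 - r * N ≥ 0 := by nlinarith
    nlinarith
  · rw [pt, Complex.add_im, hri, him]
    have : 0 ≤ r / N := by positivity
    linarith
  · have h2 := norm_add_le (1 : ℂ) (slp r)
    rw [norm_one] at h2
    rw [pt]
    linarith [norm_add_le (root r) (1 + slp r)]
  · rw [hri, neg_le_neg_iff, div_le_iff₀ (by linarith)]
    exact le_mul_of_one_le_right h0.le hsq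

/-- The trace equation pins the trace to the root. -/
theorem norm_sub_root_le {r : ℝ} (h0 : 0 < r) (h1 : r ≤ 1 / 4) (A : Fin n × Fin n → ℝ) :
    r * ‖trS (pt r) A - root r‖ ≤ ‖eqS (pt r) A‖ := by
  obtain ⟨hη, -, -, -, -, hmul⟩ := pt_props h0 h1
  have hz : 0 < (pt r).im := lt_of_lt_of_le (by positivity) hη
  have e : eqS (pt r) A = -((trS (pt r) A - root r) * (trS (pt r) A - (1 + slp r))) := by
    simp only [eqS, pt]
    linear_combination hmul
  rw [e, norm_neg, norm_mul, mul_comm]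
  refine mul_le_mul_of_nonneg_left (le_trans ?_ (Complex.abs_im_le_norm _)) (norm_nonneg _)
  have := trS_im_nonpos hz A
  refine le_trans ?_ (neg_le_abs _)
  simp [slp] at this ⊢
  linarith

/-- On the good event one linear statistic relaxes slowly. -/
theorem slow_of_good {r : ℝ} (hn : 0 < n) (h0 : 0 < r) (h1 : r ≤ 1 / 4) (A : Fin n × Fin n → ℝ)
    (hG : ‖eqG (pt r) (slp r) A‖ ≤ 1 / 4) (hS : ‖trS (pt r) A - root r‖ ≤ r) :
    gap n 1 (split n A).1 ≤ 8 * r ^ 2 ∧ ∀ t, 0 ≤ t → t * (8 * r ^ 2 * (1 + Real.log n)) ≤ 1 / 16 →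
      ∃ x, 1 / 4 < tvDist n 1 (split n A).1 t x := by
  obtain ⟨hη, -, -, hroot, -, -⟩ := pt_props h0 h1
  have hz : 0 < (pt r).im := lt_of_lt_of_le (by positivity) hη
  obtain ⟨v, w, hv, hw, hsum, hmean⟩ := weights_of_res hz A
  have hn' : (0 : ℝ) < n := Nat.cast_pos.2 hn
  have hW : ∑ i, w i ≤ 2 * r * n := by
    have hs : (trS (pt r) A - root r).im ≥ -r := by
      have := (Complex.abs_im_le_norm (trS (pt r) A - root r)).trans hS
      linarith [neg_abs_le (trS (pt r) A - root r).im]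
    rw [Complex.sub_im, trS, Complex.div_natCast_im] at hs
    have h2 : -(2 * r) ≤ (res n (pt r) A).trace.im / n := by linarith
    rw [le_div_iff₀ hn'] at h2
    linarith
  have hR : n / (4 * r) ≤ ∑ i, w i * ∑ x, gibbs n 1 (split n A).1 x * linStat (v i) x ^ 2 := by
    set G := gibR (pt r) A with hGd
    have hGe : ∑ x, (wt1 x A : ℂ) * (sv x ⬝ᵥ (res n (pt r) A *ᵥ sv x)) = G * n := by
      rw [hGd, gibR, sum_mul]
      refine sum_congr rfl fun x _ => ?_
      rw [qf, mul_assoc, div_mul_cancel₀ _ (Nat.cast_ne_zero.2 hn.ne')]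
    have a1 := (abs_le.1 ((Complex.abs_re_le_norm _).trans hG)).1
    have a2 := (abs_le.1 ((Complex.abs_im_le_norm _).trans hG)).2
    simp only [eqG, slp, ← hGd, Complex.sub_re, Complex.sub_im, Complex.mul_re, Complex.mul_im,
      Complex.add_re, Complex.add_im, Complex.ofReal_re, Complex.ofReal_im, Complex.one_re, Complex.one_im,
      Complex.I_re, Complex.I_im] at a1 a2
    have hGi : 1 ≤ -G.im * (4 * r) := by nlinarith
    rw [hmean, hGe, div_le_iff₀ (by positivity)]
    simp only [Complex.mul_im, Complex.natCast_re, Complex.natCast_im, mul_zero, zero_add]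
    nlinarith
  set g := (split n A).1
  refine ⟨(gap_le_of_weights v hv hw (by positivity) hR).trans ?_, fun t ht0 ht => ?_⟩
  · rw [div_le_iff₀ (by positivity)]
    refine hW.trans_eq ?_
    field_simp
    ring
  set V := fun i => ∑ x, gibbs n 1 g x * linStat (v i) x ^ 2
  have : Nonempty (Fin n) := ⟨⟨0, hn⟩⟩
  obtain ⟨i, -, hi⟩ := exists_max_image univ V univ_nonempty
  have hle : n / (4 * r) ≤ (∑ k, w k) * V i := by
    rw [sum_mul]
    exact hR.trans (sum_le_sum fun k hk => mul_le_mul_of_nonneg_left (hi k hk) (hw k))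
  have hV0 : 0 ≤ V i := sum_nonneg fun x _ => mul_nonneg (gibbs_pos _ _ _ x).le (sq_nonneg _)
  have hbig : (n : ℝ) / (4 * r) ≤ 2 * r * n * V i := hle.trans (mul_le_mul_of_nonneg_right hW hV0)
  rw [div_le_iff₀ (by positivity)] at hbig
  refine tv_gt_of_linStat hn (v := v i) (δ := 8 * r ^ 2) (by positivity) (by nlinarith) (by rw [hv i]; norm_num)
    ?_ ht0 ht
  rw [hv i]
  nlinarith

/-! ### Probability -/

theorem absOv_le (A : Fin n × Fin n → ℝ) {t : ℝ} (ht : 0 < t) :
    absOv A ≤ t / 2 * overlapSq n 1 (split n A).1 + 1 / (2 * t) := by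
  have hO : overlapSq n 1 (split n A).1 = ∑ x, ∑ y, wt1 x A * wt1 y A * ov x y ^ 2 := by
    have h := (overlap_identity (fun x => gibbs n 1 (split n A).1 x) fun x i => spin (x i)).1
    rw [overlapSq]
    simp only [corr, h, wt1_eq, ov, show ∀ b, P166.spin b = spin b from fun b => rfl]
    rw [sum_div]
    refine sum_congr rfl fun x _ => ?_
    rw [sum_div]
    exact sum_congr rfl fun y _ => by rw [div_pow, mul_div_assoc]
  have h1 : ∑ x, ∑ y, wt1 x A * wt1 y A * (1 / (2 * t)) = 1 / (2 * t) := by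
    simp only [← sum_mul, ← mul_sum, sum_wt1, mul_one, one_mul]
  rw [absOv, hO, ← h1, mul_sum, ← sum_add_distrib]
  refine sum_le_sum fun x _ => ?_
  rw [mul_sum, ← sum_add_distrib]
  refine sum_le_sum fun y _ => ?_
  have h0 := mul_nonneg (wt1_nonneg x A) (wt1_nonneg y A)
  have hp : |ov x y| ≤ t / 2 * ov x y ^ 2 + 1 / (2 * t) := by
    rw [← sq_abs (ov x y)]
    have e : t / 2 * |ov x y| ^ 2 + 1 / (2 * t) - |ov x y| = (t * |ov x y| - 1) ^ 2 / (2 * t) := by
      field_simp; ring
    have : 0 ≤ (t * |ov x y| - 1) ^ 2 / (2 * t) := by positivity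
    linarith
  nlinarith [mul_le_mul_of_nonneg_left hp h0]

/-- The spins of a split array. -/
theorem mp_fst (n : ℕ) : MeasurePreserving (Prod.fst ∘ split n) (law n) (disorder n) := by
  have : IsProbabilityMeasure (disorder n) := by unfold disorder; infer_instance
  exact measurePreserving_fst.comp (mp_split n)

theorem integral_absOv_le {t : ℝ} (ht : 0 < t) :
    ∫ A, absOv A ∂law n ≤ t / 2 * meanOverlap n 1 + 1 / (2 * t) := by
  have hm := mp_fst n
  have hi : Integrable (fun A => overlapSq n 1 (split n A).1) (law n) :=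
    (hm.integrable_comp (measurable_overlapSq n 1).aestronglyMeasurable).2 (integrable_overlapSq n 1)
  have ha : Integrable absOv (law n) := by simpa using (bd_absOv (n := n)).integrable.re
  refine (integral_mono ha ((hi.const_mul _).add (integrable_const _)) fun A => absOv_le A ht).trans_eq ?_
  simp only [Pi.add_apply]
  rw [integral_add (hi.const_mul _) (integrable_const _), integral_const_mul]
  have : ∫ A, overlapSq n 1 (split n A).1 ∂law n = meanOverlap n 1 := by
    rw [meanOverlap, show stdPi (Edge n) = disorder n from rfl, ← hm.map_eq,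
      integral_map hm.measurable.aemeasurable (measurable_overlapSq n 1).aestronglyMeasurable]
    rfl
  rw [this]
  simp

theorem integral_sub_root_le {r : ℝ} (hn : 0 < n) (h0 : 0 < r) (h1 : r ≤ 1 / 4) :
    ∫ A, ‖trS (pt r) A - root r‖ ∂law n ≤ 8 / (√n * r ^ 5) := by
  obtain ⟨hη, hη1, hz3, -, -, -⟩ := pt_props h0 h1
  set η := (pt r).im
  have hz : 0 < η := lt_of_lt_of_le (by positivity) hη
  have hn' : (0 : ℝ) < n := Nat.cast_pos.2 hn
  set t := √n * η ^ 2 with htd
  have ht : 0 < t := by positivity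
  have hi : Integrable (fun A => ‖eqS (pt r) A‖ ^ 2) (law n) := by
    have h := ((bd_eqS (n := n) hz).mul (bd_eqS hz).conj).integrable.re
    refine h.congr (ae_of_all _ fun A => ?_)
    simp [norm_sq_eq_re]
  have hpt : ∀ A : Fin n × Fin n → ℝ, ‖trS (pt r) A - root r‖
      ≤ t / (2 * r) * ‖eqS (pt r) A‖ ^ 2 + 1 / (2 * t * r) := fun A => by
    have h := norm_sub_root_le h0 h1 A
    set Y := ‖eqS (pt r) A‖
    have e : t / (2 * r) * Y ^ 2 + 1 / (2 * t * r) - Y / r = (t * Y - 1) ^ 2 / (2 * t * r) := by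
      field_simp; ring
    have h2 : ‖trS (pt r) A - root r‖ ≤ Y / r := by rw [le_div_iff₀ h0]; linarith
    have : 0 ≤ (t * Y - 1) ^ 2 / (2 * t * r) := by positivity
    linarith
  refine (integral_mono (((bd_trS hz).sub (bd_const _)).integrable.norm)
    ((hi.const_mul _).add (integrable_const _)) hpt).trans ?_
  simp only [Pi.add_apply]
  rw [integral_add (hi.const_mul _) (integrable_const _), integral_const_mul]
  simp only [integral_const, probReal_univ, one_smul]
  refine (add_le_add (mul_le_mul_of_nonneg_left (second_moment_trS hn hz hη1 hz3) (by positivity)) le_rfl).trans ?_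
  calc t / (2 * r) * (15 / (n * η ^ 4)) + 1 / (2 * t * r) = 8 / (√n * η ^ 2 * r) := by
        rw [htd]; field_simp; rw [Real.sq_sqrt hn'.le]; ring
    _ ≤ _ := by
        refine div_le_div_of_nonneg_left (by norm_num) (by positivity) ?_
        rw [mul_assoc]
        refine mul_le_mul_of_nonneg_left ?_ (Real.sqrt_nonneg _)
        calc r ^ 5 = (r ^ 2) ^ 2 * r := by ring
          _ ≤ η ^ 2 * r := by gcongr

theorem prob_bad {r t : ℝ} (hn : 0 < n) (h0 : 0 < r) (h1 : r ≤ 1 / 4) (ht : 0 < t) :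
    (law n).real {A | 1 / 4 < ‖eqG (pt r) (slp r) A‖ ∨ r < ‖trS (pt r) A - root r‖}
      ≤ 16 * (16 / (√n * r ^ 9) + 2 * (t * meanOverlap n 1 + 1 / t) / r ^ 4 + 4 / (n * r ^ 6))
        + 8 / (√n * r ^ 6) := by
  obtain ⟨hη, hη1, -, -, hsl, -⟩ := pt_props h0 h1
  set η := (pt r).im
  have hz : 0 < η := lt_of_lt_of_le (by positivity) hη
  have hn' : (0 : ℝ) < n := Nat.cast_pos.2 hn
  have ea : pt r - 1 - root r = slp r := by rw [pt]; ring
  have hG := second_moment_gibR hn hz hη1 (root r) (by rw [ea]; exact hsl)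
  rw [ea] at hG
  have hS := integral_sub_root_le hn h0 h1
  have hG2 : ∫ A, ‖eqG (pt r) (slp r) A‖ ^ 2 ∂law n
      ≤ 16 / (√n * r ^ 9) + 2 * (t * meanOverlap n 1 + 1 / t) / r ^ 4 + 4 / (n * r ^ 6) := by
    refine hG.trans (add_le_add (add_le_add ?_ ?_) ?_)
    · refine (mul_le_mul (div_le_div_of_nonneg_left two_pos.le (by positivity) (pow_le_pow_left₀ (by positivity) hη 2))
        hS (integral_nonneg fun A => norm_nonneg _) (by positivity)).trans_eq ?_
      field_simp; ring
    · refine (mul_le_mul (div_le_div_of_nonneg_left (by norm_num) (by positivity) (pow_le_pow_left₀ (by positivity) hη 2))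
        (integral_absOv_le ht) (integral_nonneg fun A => sum_nonneg fun x _ => sum_nonneg fun y _ =>
          mul_nonneg (mul_nonneg (wt1_nonneg x A) (wt1_nonneg y A)) (abs_nonneg _)) (by positivity)).trans_eq ?_
      field_simp; ring
    · refine div_le_div_of_nonneg_left (by norm_num) (by positivity) (mul_le_mul_of_nonneg_left ?_ hn'.le)
      calc r ^ 6 = (r ^ 2) ^ 3 := by ring
        _ ≤ η ^ 3 := pow_le_pow_left₀ (by positivity) hη 3
  have hiG : Integrable (fun A => ‖eqG (pt r) (slp r) A‖ ^ 2) (law n) := by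
    have hb : Bd (eqG (n := n) (pt r) (slp r)) := ((bd_const _).mul (bd_gibR hz)).sub (bd_const 1)
    refine (hb.mul hb.conj).integrable.re.congr (ae_of_all _ fun A => ?_)
    simp [norm_sq_eq_re]
  have m1 := mul_meas_ge_le_integral_of_nonneg (ae_of_all _ fun A => sq_nonneg ‖eqG (pt r) (slp r) A‖) hiG (1 / 16)
  have m2 := mul_meas_ge_le_integral_of_nonneg (ae_of_all _ fun A => norm_nonneg (trS (pt r) A - root r))
    (((bd_trS (n := n) hz).sub (bd_const _)).integrable.norm) r
  refine (measureReal_mono ?_).trans ((measureReal_union_le _ _).trans (add_le_add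
    (show (law n).real {A | 1 / 16 ≤ ‖eqG (pt r) (slp r) A‖ ^ 2} ≤ _ by linarith)
    (show (law n).real {A | r ≤ ‖trS (pt r) A - root r‖} ≤ _ from ?_)))
  · rintro A (h | h)
    · left
      simp only [Set.mem_ofPred_eq]
      nlinarith
    · exact Or.inr h.le
  · rw [← mul_le_mul_iff_right₀ h0]
    refine (m2.trans hS).trans_eq ?_
    field_simp

/-- At the critical temperature the gap is below every power `n ^ (-c)` with `c < 1/20` and the
mixing time is above `n ^ c`, with probability tending to one. -/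
theorem slow_critical {c η : ℝ} (hc : c < 1 / 20) (hη : 0 < η) : ∃ n₀ : ℕ, ∀ n ≥ n₀,
    ENNReal.ofReal (1 - η) ≤ disorder n {g | gap n 1 g ≤ (n : ℝ) ^ (-c) ∧
      ∀ t, 0 ≤ t → t ≤ (n : ℝ) ^ c → ∃ x, 1 / 4 < tvDist n 1 g t x} := by
  obtain ⟨C, hC, hov⟩ := meanOverlap_one_le
  set d := (max c 0 + 1 / 20) / 4 with hd
  have hm : max c 0 < 1 / 20 := max_lt hc (by norm_num)
  have hd0 : 0 < d := by have := le_max_right c 0; linarith
  have hd1 : d < 1 / 40 := by linarith
  have hd2 : c < 2 * d := by have := le_max_left c 0; linarith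
  set r : ℕ → ℝ := fun n => (n : ℝ) ^ (-d)
  have hpow : ∀ {a : ℝ}, a < 0 → Tendsto (fun n : ℕ => (n : ℝ) ^ a) atTop (𝓝 0) := fun {a} ha => by
    have h := (tendsto_rpow_neg_atTop (neg_pos.2 ha)).comp tendsto_natCast_atTop_atTop
    simpa [Function.comp_def] using h
  have hlog : Tendsto (fun n : ℕ => (1 + Real.log n) * (n : ℝ) ^ (c - 2 * d)) atTop (𝓝 0) := by
    have ha : 0 < 2 * d - c := by linarith
    have h := ((isLittleO_log_rpow_atTop ha).tendsto_div_nhds_zero.comp tendsto_natCast_atTop_atTop).add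
      (hpow (show c - 2 * d < 0 by linarith))
    rw [add_zero] at h
    refine h.congr' ?_
    filter_upwards [eventually_gt_atTop 0] with n hn
    have hn' : (0 : ℝ) < n := Nat.cast_pos.2 hn
    simp only [Function.comp_apply]
    rw [show c - 2 * d = -(2 * d - c) by ring, Real.rpow_neg hn'.le]
    ring
  have hB : Tendsto (fun n : ℕ => 256 * (n : ℝ) ^ (9 * d - 1 / 2) + 32 * (C + 1) * (n : ℝ) ^ (4 * d - 1 / 10)
      + 64 * (n : ℝ) ^ (6 * d - 1) + 8 * (n : ℝ) ^ (6 * d - 1 / 2)) atTop (𝓝 0) := by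
    have := (((hpow (show 9 * d - 1 / 2 < 0 by linarith)).const_mul 256).add
      ((hpow (show 4 * d - 1 / 10 < 0 by linarith)).const_mul (32 * (C + 1)))).add
      ((hpow (show 6 * d - 1 < 0 by linarith)).const_mul 64) |>.add
      ((hpow (show 6 * d - 1 / 2 < 0 by linarith)).const_mul 8)
    simpa using this
  obtain ⟨n₀, hn₀⟩ := eventually_atTop.1 ((((hB.eventually (eventually_le_nhds hη)).and
    ((hpow (neg_lt_zero.2 hd0)).eventually (eventually_le_nhds (show (0 : ℝ) < 1 / 4 by norm_num)))).and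
    ((hlog.eventually (eventually_le_nhds (show (0 : ℝ) < 1 / 128 by norm_num))).and
      ((hpow (show c - 2 * d < 0 by linarith)).eventually (eventually_le_nhds (show (0 : ℝ) < 1 / 8 by norm_num))))).and
    (eventually_gt_atTop 0))
  refine ⟨n₀, fun n hn => ?_⟩
  obtain ⟨⟨⟨hb, hr1⟩, hl, hl8⟩, hn0⟩ := hn₀ n hn
  have hn' : (0 : ℝ) < n := Nat.cast_pos.2 hn0
  have hr0 : 0 < r n := Real.rpow_pos_of_pos hn' _
  have e2 : r n ^ 2 = (n : ℝ) ^ (c - 2 * d) * (n : ℝ) ^ (-c) := by
    rw [← Real.rpow_natCast (r n), ← Real.rpow_mul hn'.le, ← Real.rpow_add hn']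
    congr 1; push_cast; ring
  set B : Set (Fin n × Fin n → ℝ) :=
    {A | 1 / 4 < ‖eqG (pt (r n)) (slp (r n)) A‖ ∨ r n < ‖trS (pt (r n)) A - root (r n)‖}
  have hsub : Bᶜ ⊆ (Prod.fst ∘ split n) ⁻¹' {g | gap n 1 g ≤ (n : ℝ) ^ (-c) ∧
      ∀ t, 0 ≤ t → t ≤ (n : ℝ) ^ c → ∃ x, 1 / 4 < tvDist n 1 g t x} := by
    intro A hA
    simp only [B, Set.mem_compl_iff, Set.mem_ofPred_eq, not_or, not_lt] at hA
    obtain ⟨hg, ht⟩ := slow_of_good hn0 hr0 hr1 A hA.1 hA.2
    refine ⟨hg.trans ?_, fun t t0 t1 => ht t t0 ?_⟩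
    · rw [e2]; nlinarith [Real.rpow_pos_of_pos hn' (-c)]
    · have hlg : 0 ≤ 1 + Real.log n := by
        have := Real.log_natCast_nonneg n
        linarith
      refine (mul_le_mul_of_nonneg_right t1 (by positivity)).trans ?_
      rw [e2]
      have e3 : (n : ℝ) ^ c * (n : ℝ) ^ (-c) = 1 := by
        rw [← Real.rpow_add hn', add_neg_cancel, Real.rpow_zero]
      calc (n : ℝ) ^ c * (8 * ((n : ℝ) ^ (c - 2 * d) * (n : ℝ) ^ (-c)) * (1 + Real.log n))
          = 8 * ((1 + Real.log n) * (n : ℝ) ^ (c - 2 * d)) * ((n : ℝ) ^ c * (n : ℝ) ^ (-c)) := by ring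
        _ ≤ _ := by rw [e3]; linarith
  have hBb : (law n).real B ≤ η := by
    refine ((prob_bad (t := (n : ℝ) ^ (1 / 10 : ℝ)) hn0 hr0 hr1 (Real.rpow_pos_of_pos hn' _)).trans ?_).trans hb
    have p : ∀ (k : ℕ) (a : ℝ), (n : ℝ) ^ a / r n ^ k = (n : ℝ) ^ (a + k * d) := fun k a => by
      rw [← Real.rpow_natCast (r n), ← Real.rpow_mul hn'.le, ← Real.rpow_sub hn']
      congr 1; ring
    have hs : ∀ (b : ℝ) (k : ℕ), b / (√n * r n ^ k) = b * ((n : ℝ) ^ (-(1 / 2) : ℝ) / r n ^ k) := fun b k => by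
      rw [Real.sqrt_eq_rpow, Real.rpow_neg hn'.le]; field_simp
    have h1n : (4 : ℝ) / (n * r n ^ 6) = 4 * ((n : ℝ) ^ (-1 : ℝ) / r n ^ 6) := by
      rw [Real.rpow_neg_one]; field_simp
    have ht : (n : ℝ) ^ (1 / 10 : ℝ) * meanOverlap n 1 + 1 / (n : ℝ) ^ (1 / 10 : ℝ)
        ≤ (C + 1) * (n : ℝ) ^ (-(1 / 10) : ℝ) := by
      have h := mul_le_mul_of_nonneg_left (hov n hn0) (Real.rpow_pos_of_pos hn' (1 / 10)).le
      rw [mul_left_comm, ← Real.rpow_add hn'] at h
      rw [one_div ((n : ℝ) ^ (1 / 10 : ℝ)), ← Real.rpow_neg hn'.le]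
      norm_num at h ⊢
      linarith
    have ht' := div_le_div_of_nonneg_right (mul_le_mul_of_nonneg_left ht zero_le_two) (pow_nonneg hr0.le 4)
    have e4 : 2 * ((C + 1) * (n : ℝ) ^ (-(1 / 10) : ℝ)) / r n ^ 4
        = 2 * (C + 1) * ((n : ℝ) ^ (-(1 / 10) : ℝ) / r n ^ 4) := by ring
    rw [e4] at ht'
    simp only [hs, h1n, p] at ht' ⊢
    push_cast at ht' ⊢
    ring_nf at ht' ⊢
    linarith
  have hB' : (law n) B ≤ ENNReal.ofReal η := by
    rw [← ofReal_measureReal]; exact ENNReal.ofReal_le_ofReal hBb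
  have hcompl : ENNReal.ofReal (1 - η) ≤ (law n) Bᶜ := by
    rw [ENNReal.ofReal_sub _ hη.le, ENNReal.ofReal_one]
    refine tsub_le_iff_right.2 ?_
    calc (1 : ENNReal) = law n (Bᶜ ∪ B) := by rw [Set.compl_union_self, measure_univ]
      _ ≤ law n Bᶜ + law n B := measure_union_le _ _
      _ ≤ _ := add_le_add le_rfl hB'
  refine hcompl.trans ((measure_mono hsub).trans ?_)
  exact (Measure.le_map_apply (mp_fst n).measurable.aemeasurable _).trans_eq (by rw [(mp_fst n).map_eq])

end Vale.Agent.P150.Rate
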