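import Vale.Agent.P146.Goe.Spec

/-!
# P150 rate: the resolvent of the GOE matrix off the real axis

Bounds for the resolvent at a complex point, its derivatives along the coordinates of the array and
the contraction of two bilinear forms over the coordinates.
-/

open MeasureTheory Matrix Finset Filter Topology
open Vale.Agent.P146 (goe quad)

namespace Vale.Agent.P150.Rate

variable {n : ℕ}

/-- The GOE matrix with complex entries. -/
noncomputable def gm (n : ℕ) (A : Fin n × Fin n → ℝ) : Matrix (Fin n) (Fin n) ℂ :=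
  Matrix.of fun i j => ((goe n A i j : ℝ) : ℂ)

/-- The resolvent. -/
noncomputable def res (n : ℕ) (z : ℂ) (A : Fin n × Fin n → ℝ) : Matrix (Fin n) (Fin n) ℂ :=
  (z • (1 : Matrix (Fin n) (Fin n) ℂ) - gm n A)⁻¹

/-- The bilinear form of the derivative of the matrix along a coordinate. -/
noncomputable def eb (p : Fin n × Fin n) (u v : Fin n → ℂ) : ℂ :=
  (u p.1 * v p.2 + u p.2 * v p.1) / ((√(2 * n) : ℝ) : ℂ)

/-- The squared length. -/
noncomputable def nrm (u : Fin n → ℂ) : ℝ := ∑ i, (u i).re ^ 2 + ∑ i, (u i).im ^ 2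

theorem nrm_nonneg (u : Fin n → ℂ) : 0 ≤ nrm u := by unfold nrm; positivity

theorem nrm_eq (u : Fin n → ℂ) : nrm u = ∑ i, ‖u i‖ ^ 2 := by
  rw [nrm, ← sum_add_distrib]
  refine sum_congr rfl fun i _ => ?_
  rw [Complex.sq_norm, Complex.normSq_apply]
  ring

theorem nrm_conj (u : Fin n → ℂ) : nrm (fun i => starRingEnd ℂ (u i)) = nrm u := by
  simp only [nrm_eq, RCLike.norm_conj]

theorem norm_dot_le {u v : Fin n → ℂ} {a b : ℝ} (ha : 0 ≤ a) (hb : 0 ≤ b) (hu : nrm u ≤ a ^ 2)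
    (hv : nrm v ≤ b ^ 2) : ‖u ⬝ᵥ v‖ ≤ a * b := by
  refine (norm_sum_le _ _).trans ?_
  simp only [norm_mul]
  rw [nrm_eq] at hu hv
  have h := sum_mul_sq_le_sq_mul_sq univ (fun i => ‖u i‖) fun i => ‖v i‖
  refine nonneg_le_nonneg_of_sq_le_sq (by positivity) ?_
  rw [← pow_two, ← pow_two, mul_pow]
  exact h.trans (mul_le_mul hu hv (sum_nonneg fun i _ => sq_nonneg _) (sq_nonneg a))

theorem nrm_map (V : Matrix (Fin n) (Fin n) ℝ) (hV : Vᵀ * V = 1) (u : Fin n → ℂ) :
    nrm (V.map Complex.ofReal *ᵥ u) = nrm u := by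
  have hr : ∀ x : Fin n → ℝ, ∑ i, (V *ᵥ x) i ^ 2 = ∑ i, x i ^ 2 := fun x => by
    have h : (V *ᵥ x) ⬝ᵥ (V *ᵥ x) = x ⬝ᵥ x := by
      rw [dotProduct_mulVec, ← mulVec_transpose, mulVec_mulVec, hV, one_mulVec]
    simpa [dotProduct, pow_two] using h
  simp only [nrm]
  rw [← hr fun j => (u j).re, ← hr fun j => (u j).im]
  simp [mulVec, dotProduct, Complex.re_sum, Complex.im_sum]

/-- The resolvent in an eigenbasis. -/
theorem exists_res_eq {z : ℂ} (hz : 0 < z.im) (A : Fin n × Fin n → ℝ) :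
    ∃ (V : Matrix (Fin n) (Fin n) ℝ) (lam : Fin n → ℝ), V * Vᵀ = 1 ∧ Vᵀ * V = 1 ∧
      (z • (1 : Matrix (Fin n) (Fin n) ℂ) - gm n A) * res n z A = 1 ∧
      res n z A = (V.map Complex.ofReal)ᵀ * diagonal (fun i => (z - lam i)⁻¹) * V.map Complex.ofReal := by
  obtain ⟨V, h1, h2, h3⟩ := P146.Goe.exists_spectral A
  refine ⟨V, P146.Goe.lamG A, h1, h2, ?_⟩
  set W := V.map Complex.ofReal with hW
  have hmap : ∀ X Y : Matrix (Fin n) (Fin n) ℝ,
      (X * Y).map Complex.ofReal = X.map Complex.ofReal * Y.map Complex.ofReal := fun X Y => by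
    ext i j; simp [Matrix.mul_apply]
  have hone : (1 : Matrix (Fin n) (Fin n) ℝ).map Complex.ofReal = 1 :=
    Matrix.map_one _ Complex.ofReal_zero Complex.ofReal_one
  have w1 : W * Wᵀ = 1 := by rw [hW, ← Matrix.transpose_map, ← hmap, h1, hone]
  have w2 : Wᵀ * W = 1 := by rw [hW, ← Matrix.transpose_map, ← hmap, h2, hone]
  have hg : gm n A = Wᵀ * diagonal (fun i => (P146.Goe.lamG A i : ℂ)) * W := by
    have : gm n A = (goe n A).map Complex.ofReal := rfl
    rw [this, h3, hmap, hmap, Matrix.transpose_map, Matrix.diagonal_map Complex.ofReal_zero]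
  have hne : ∀ i, z - (P146.Goe.lamG A i : ℂ) ≠ 0 := fun i h => by
    have := congrArg Complex.im h
    simp at this
    linarith
  have hX : z • (1 : Matrix (Fin n) (Fin n) ℂ) - gm n A
      = Wᵀ * diagonal (fun i => z - (P146.Goe.lamG A i : ℂ)) * W := by
    have e : diagonal (fun i => z - (P146.Goe.lamG A i : ℂ))
        = z • (1 : Matrix (Fin n) (Fin n) ℂ) - diagonal fun i => (P146.Goe.lamG A i : ℂ) := by
      rw [smul_one_eq_diagonal, diagonal_sub]
    rw [e, mul_sub, sub_mul, ← hg, mul_smul_comm, mul_one, smul_mul_assoc, w2]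
  have hinv : (z • (1 : Matrix (Fin n) (Fin n) ℂ) - gm n A)
      * (Wᵀ * diagonal (fun i => (z - (P146.Goe.lamG A i : ℂ))⁻¹) * W) = 1 := by
    rw [hX]
    simp only [mul_assoc]
    rw [← mul_assoc W Wᵀ, w1, one_mul, ← mul_assoc (diagonal _) (diagonal _), diagonal_mul_diagonal]
    simp only [mul_inv_cancel₀ (hne _), diagonal_one, one_mul, w2]
  have hres : res n z A = Wᵀ * diagonal (fun i => (z - (P146.Goe.lamG A i : ℂ))⁻¹) * W :=
    Matrix.inv_eq_right_inv hinv
  exact ⟨hres ▸ hinv, hres⟩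

variable {z : ℂ}

theorem mul_res (hz : 0 < z.im) (A : Fin n × Fin n → ℝ) :
    (z • (1 : Matrix (Fin n) (Fin n) ℂ) - gm n A) * res n z A = 1 := by
  obtain ⟨_, _, -, -, h, -⟩ := exists_res_eq hz A
  exact h

theorem res_mul (hz : 0 < z.im) (A : Fin n × Fin n → ℝ) :
    res n z A * (z • (1 : Matrix (Fin n) (Fin n) ℂ) - gm n A) = 1 :=
  mul_eq_one_comm.1 (mul_res hz A)

theorem res_transpose (hz : 0 < z.im) (A : Fin n × Fin n → ℝ) : (res n z A)ᵀ = res n z A := by
  obtain ⟨_, _, -, -, -, h⟩ := exists_res_eq hz A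
  simp only [h, transpose_mul, diagonal_transpose, transpose_transpose, mul_assoc]

theorem dot_res_comm (hz : 0 < z.im) (A : Fin n × Fin n → ℝ) (u v : Fin n → ℂ) :
    u ⬝ᵥ (res n z A *ᵥ v) = (res n z A *ᵥ u) ⬝ᵥ v := by
  rw [dotProduct_mulVec, ← mulVec_transpose, res_transpose hz]

theorem nrm_res_le (hz : 0 < z.im) (A : Fin n × Fin n → ℝ) (u : Fin n → ℂ) :
    nrm (res n z A *ᵥ u) ≤ nrm u / z.im ^ 2 := by
  obtain ⟨V, lam, h1, h2, -, h⟩ := exists_res_eq hz A
  have hT : Vᵀᵀ * Vᵀ = 1 := by rwa [transpose_transpose]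
  rw [h, ← mulVec_mulVec, ← mulVec_mulVec, ← Matrix.transpose_map, nrm_map _ hT, nrm_eq,
    ← nrm_map V h2 u, nrm_eq, sum_div]
  refine sum_le_sum fun i _ => ?_
  rw [mulVec_diagonal, norm_mul, norm_inv, mul_pow, inv_pow, mul_comm, ← div_eq_mul_inv]
  refine div_le_div_of_nonneg_left (sq_nonneg _) (by positivity) ?_
  refine pow_le_pow_left₀ hz.le ?_ 2
  have := Complex.abs_im_le_norm (z - lam i)
  simp only [Complex.sub_im, Complex.ofReal_im, sub_zero] at this
  exact (le_abs_self _).trans this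

/-- A standard basis vector. -/
noncomputable def ev (i : Fin n) : Fin n → ℂ := Pi.single i 1

theorem nrm_ev (i : Fin n) : nrm (ev i) = 1 := by
  rw [nrm_eq, sum_eq_single i] <;> simp +contextual [ev]

theorem res_apply (A : Fin n × Fin n → ℝ) (i j : Fin n) : res n z A i j = (res n z A *ᵥ ev j) i := by
  simp [ev, mulVec, dotProduct, Pi.single_apply]

theorem norm_res_le (hz : 0 < z.im) (A : Fin n × Fin n → ℝ) (i j : Fin n) :
    ‖res n z A i j‖ ≤ 1 / z.im := by
  rw [res_apply]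
  have h := nrm_res_le hz A (ev j)
  rw [nrm_ev, nrm_eq] at h
  refine nonneg_le_nonneg_of_sq_le_sq (by positivity) ?_
  rw [← pow_two, ← pow_two, div_pow, one_pow]
  exact (single_le_sum (f := fun k => ‖(res n z A *ᵥ ev j) k‖ ^ 2) (fun k _ => sq_nonneg _)
    (mem_univ i)).trans h

/-! ### Bounded continuous observables -/

/-- A bounded continuous function of the array. -/
def Bd (f : (Fin n × Fin n → ℝ) → ℂ) : Prop := Continuous f ∧ ∃ C : ℝ, ∀ A, ‖f A‖ ≤ C

theorem bd_const (c : ℂ) : Bd fun _ : Fin n × Fin n → ℝ => c := ⟨continuous_const, ‖c‖, fun _ => le_rfl⟩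

variable {f h : (Fin n × Fin n → ℝ) → ℂ}

theorem Bd.add (hf : Bd f) (hh : Bd h) : Bd fun A => f A + h A := by
  obtain ⟨hc, C, hC⟩ := hf
  obtain ⟨hc', C', hC'⟩ := hh
  exact ⟨hc.add hc', C + C', fun A => (norm_add_le _ _).trans (add_le_add (hC A) (hC' A))⟩

theorem Bd.mul (hf : Bd f) (hh : Bd h) : Bd fun A => f A * h A := by
  obtain ⟨hc, C, hC⟩ := hf
  obtain ⟨hc', C', hC'⟩ := hh
  exact ⟨hc.mul hc', C * C', fun A => (norm_mul_le _ _).trans
    (mul_le_mul (hC A) (hC' A) (norm_nonneg _) ((norm_nonneg _).trans (hC A)))⟩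

theorem Bd.sub (hf : Bd f) (hh : Bd h) : Bd fun A => f A - h A := by
  simpa [sub_eq_add_neg] using hf.add ((bd_const (-1)).mul hh)

theorem Bd.conj (hf : Bd f) : Bd fun A => starRingEnd ℂ (f A) := by
  obtain ⟨hc, C, hC⟩ := hf
  exact ⟨Complex.continuous_conj.comp hc, C, fun A => by rw [RCLike.norm_conj]; exact hC A⟩

theorem Bd.div_const (hf : Bd f) (c : ℂ) : Bd fun A => f A / c := by
  simpa [div_eq_mul_inv] using hf.mul (bd_const c⁻¹)

theorem bd_sum {ι : Type*} (s : Finset ι) {F : ι → (Fin n × Fin n → ℝ) → ℂ} (hF : ∀ i ∈ s, Bd (F i)) :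
    Bd fun A => ∑ i ∈ s, F i A := by
  classical
  induction s using Finset.induction with
  | empty => simpa using bd_const (n := n) 0
  | insert a s ha ih =>
    simp only [sum_insert ha]
    exact (hF a (mem_insert_self a s)).add (ih fun i hi => hF i (mem_insert_of_mem hi))

theorem bd_res (hz : 0 < z.im) (i j : Fin n) : Bd fun A => res n z A i j := by
  refine ⟨?_, 1 / z.im, fun A => norm_res_le hz A i j⟩
  have hX : Continuous fun A : Fin n × Fin n → ℝ => z • (1 : Matrix (Fin n) (Fin n) ℂ) - gm n A := by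
    unfold gm goe
    fun_prop
  have hdet : ∀ A : Fin n × Fin n → ℝ, (z • (1 : Matrix (Fin n) (Fin n) ℂ) - gm n A).det ≠ 0 := fun A =>
    (Matrix.isUnit_det_of_right_inverse (mul_res hz A)).ne_zero
  simp only [res, Matrix.inv_def, Ring.inverse_eq_inv', Matrix.smul_apply, smul_eq_mul]
  exact (hX.matrix_det.inv₀ hdet).mul (hX.matrix_adjugate.matrix_elem i j)

theorem bd_mulVec (hz : 0 < z.im) (u : Fin n → ℂ) (i : Fin n) : Bd fun A => (res n z A *ᵥ u) i := by
  simp only [mulVec, dotProduct]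
  exact bd_sum _ fun j _ => (bd_res hz i j).mul (bd_const _)

theorem bd_dot_res (hz : 0 < z.im) (u v : Fin n → ℂ) : Bd fun A => u ⬝ᵥ (res n z A *ᵥ v) :=
  bd_sum _ fun i _ => (bd_const _).mul (bd_mulVec hz v i)

theorem bd_eb {u v : (Fin n × Fin n → ℝ) → Fin n → ℂ} (hu : ∀ i, Bd fun A => u A i)
    (hv : ∀ i, Bd fun A => v A i) (p : Fin n × Fin n) : Bd fun A => eb p (u A) (v A) :=
  (((hu p.1).mul (hv p.2)).add ((hu p.2).mul (hv p.1))).div_const _

/-! ### Coordinates -/

theorem dot_gm (A : Fin n × Fin n → ℝ) (u v : Fin n → ℂ) :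
    u ⬝ᵥ (gm n A *ᵥ v) = ∑ p, (A p : ℂ) * eb p u v := by
  simp only [dotProduct, mulVec, gm, Matrix.of_apply, goe, eb, Fintype.sum_prod_type, mul_sum]
  simp only [Complex.ofReal_div, Complex.ofReal_add, add_mul, add_div, mul_add, sum_add_distrib,
    div_mul_eq_mul_div, mul_div_assoc']
  congr 1
  · exact sum_congr rfl fun i _ => sum_congr rfl fun j _ => by ring
  · rw [sum_comm]
    exact sum_congr rfl fun i _ => sum_congr rfl fun j _ => by ring

theorem dot_gm_update (A : Fin n × Fin n → ℝ) (p : Fin n × Fin n) (x y : ℝ) (u v : Fin n → ℂ) :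
    u ⬝ᵥ (gm n (Function.update A p y) *ᵥ v) - u ⬝ᵥ (gm n (Function.update A p x) *ᵥ v)
      = ((y - x : ℝ) : ℂ) * eb p u v := by
  rw [dot_gm, dot_gm, ← sum_sub_distrib, sum_eq_single p]
  · simp only [Function.update_self]
    push_cast
    ring
  · intro r _ hr; simp [Function.update_of_ne hr]
  · simp

/-- The derivative of a bilinear form of the resolvent along a coordinate. -/
theorem hasDerivAt_dot_res (hz : 0 < z.im) (A : Fin n × Fin n → ℝ) (p : Fin n × Fin n) (x : ℝ)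
    (u v : Fin n → ℂ) :
    HasDerivAt (fun y => u ⬝ᵥ (res n z (Function.update A p y) *ᵥ v))
      (eb p (res n z (Function.update A p x) *ᵥ u) (res n z (Function.update A p x) *ᵥ v)) x := by
  set c := fun y => Function.update A p y
  have key : ∀ y, u ⬝ᵥ (res n z (c y) *ᵥ v) - u ⬝ᵥ (res n z (c x) *ᵥ v)
      = ((y - x : ℝ) : ℂ) * eb p (res n z (c y) *ᵥ u) (res n z (c x) *ᵥ v) := fun y => by
    have e : res n z (c y) - res n z (c x)
        = res n z (c y) * (gm n (c y) - gm n (c x)) * res n z (c x) := by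
      have e' : gm n (c y) - gm n (c x)
          = (z • (1 : Matrix (Fin n) (Fin n) ℂ) - gm n (c x)) - (z • 1 - gm n (c y)) := by abel
      rw [e', mul_sub, sub_mul, mul_assoc, mul_res hz, mul_one, res_mul hz, one_mul]
    have h1 := dot_gm_update A p x y (res n z (c y) *ᵥ u) (res n z (c x) *ᵥ v)
    rw [← h1]
    calc u ⬝ᵥ (res n z (c y) *ᵥ v) - u ⬝ᵥ (res n z (c x) *ᵥ v)
        = u ⬝ᵥ ((res n z (c y) - res n z (c x)) *ᵥ v) := by
          rw [Matrix.sub_mulVec, dotProduct_sub]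
      _ = u ⬝ᵥ (res n z (c y) *ᵥ ((gm n (c y) - gm n (c x)) *ᵥ (res n z (c x) *ᵥ v))) := by
          rw [e, Matrix.mulVec_mulVec, Matrix.mulVec_mulVec, Matrix.mul_assoc]
      _ = (res n z (c y) *ᵥ u) ⬝ᵥ ((gm n (c y) - gm n (c x)) *ᵥ (res n z (c x) *ᵥ v)) :=
          dot_res_comm hz _ _ _
      _ = _ := by rw [Matrix.sub_mulVec, dotProduct_sub]
  rw [hasDerivAt_iff_tendsto_slope]
  have hc : Continuous c := continuous_const.update p continuous_id
  have hlim : Tendsto (fun y => eb p (res n z (c y) *ᵥ u) (res n z (c x) *ᵥ v)) (𝓝[≠] x)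
      (𝓝 (eb p (res n z (c x) *ᵥ u) (res n z (c x) *ᵥ v))) := by
    refine Tendsto.mono_left (Continuous.tendsto ?_ x) nhdsWithin_le_nhds
    have h : ∀ i, Continuous fun y => (res n z (c y) *ᵥ u) i := fun i => (bd_mulVec hz u i).1.comp hc
    unfold eb
    exact (((h p.1).mul continuous_const).add ((h p.2).mul continuous_const)).div_const _
  refine hlim.congr' (eventually_nhdsWithin_of_forall fun y hy => ?_)
  have hne : ((y - x : ℝ) : ℂ) ≠ 0 := by simpa [sub_eq_zero] using hy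
  rw [slope_def_module, key, ← Complex.real_smul, smul_smul, inv_mul_cancel₀ (sub_ne_zero.2 hy), one_smul]

/-- Two bilinear forms contracted over the coordinates. -/
theorem contr (u v c d : Fin n → ℂ) :
    ∑ p, eb p u v * eb p c d = ((u ⬝ᵥ c) * (v ⬝ᵥ d) + (u ⬝ᵥ d) * (v ⬝ᵥ c)) / n := by
  rcases Nat.eq_zero_or_pos n with rfl | hn
  · simp
  have hs : ((√(2 * n) : ℝ) : ℂ) * ((√(2 * n) : ℝ) : ℂ) = 2 * n := by
    rw [← Complex.ofReal_mul, Real.mul_self_sqrt (by positivity)]; simp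
  have hn' : (n : ℂ) ≠ 0 := Nat.cast_ne_zero.2 hn.ne'
  have e : ∀ a b : Fin n, eb (a, b) u v * eb (a, b) c d
      = (u a * c a * (v b * d b) + u a * d a * (v b * c b) + v a * c a * (u b * d b)
        + v a * d a * (u b * c b)) / (2 * n) := fun a b => by
    rw [eb, eb, div_mul_div_comm, hs]
    ring
  simp only [Fintype.sum_prod_type, e, ← sum_div, sum_add_distrib, ← mul_sum, ← sum_mul, dotProduct]
  field_simp
  ring

/-- A form contracted with the derivative of the resolvent. -/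
theorem contr_res (A : Fin n × Fin n → ℝ) (hz : 0 < z.im) (c v : Fin n → ℂ) :
    ∑ p, eb p c (fun b => eb p (res n z A *ᵥ ev b) v)
      = ((res n z A *ᵥ c) ⬝ᵥ v + (c ⬝ᵥ v) * (res n z A).trace) / n := by
  have e : ∀ (p : Fin n × Fin n) (w : Fin n → ℂ), eb p c w = ∑ b, w b * eb p c (ev b) := fun p w => by
    simp [eb, ev, Pi.single_apply, mul_div_assoc', ← sum_div, mul_add, sum_add_distrib, mul_comm]
  simp only [e _ (fun b => eb _ (res n z A *ᵥ ev b) v)]
  rw [sum_comm]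
  have e2 : ∀ b, ∑ p, eb p (res n z A *ᵥ ev b) v * eb p c (ev b)
      = ((res n z A *ᵥ c) b * v b + res n z A b b * (c ⬝ᵥ v)) / n := fun b => by
    rw [contr, ← dot_res_comm hz, dotProduct_comm v c]
    congr 1
    simp [ev, dotProduct, Pi.single_apply, mul_comm]
  simp only [e2, ← sum_div, sum_add_distrib, ← sum_mul]
  simp [dotProduct, Matrix.trace, mul_comm]

end Vale.Agent.P150.Rate
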